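import Vale.Agent.P208.Phases

/-!
If every segment of the layout has slope at most `σ` while the axis has slope `s` close to `σ`,
then values at different times differ by translations, so the tree embeds.
-/

open Metric Set
open scoped Classical

namespace Vale.Agent.P208

/-- Distinct points of every branch are at distance at least `η`. -/
def SepT (η : ℝ) : PTree → Finset E2 → Prop
  | .node _ pt _ ch, anc =>
    let S := anc ∪ Finset.univ.image pt
    (∀ x ∈ S, ∀ y ∈ S, x ≠ y → η ≤ dist x y) ∧ ∀ i, SepT η (ch i) S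

lemma SepT.mono {η η' : ℝ} (h : η' ≤ η) : ∀ {T : PTree} {anc : Finset E2},
    SepT η T anc → SepT η' T anc
  | .node _ _ _ _, _, hT => ⟨fun x hx y hy hxy => h.trans (hT.1 x hx y hy hxy),
      fun i => SepT.mono h (hT.2 i)⟩

lemma exists_sep : ∀ (T : PTree) (anc : Finset E2), ∃ η > 0, SepT η T anc
  | .node p pt m ch, anc => by
    set S := anc ∪ Finset.univ.image pt
    choose η hη hη' using fun i => exists_sep (ch i) S
    let V : Finset ℝ := insert 1 (Finset.univ.image η ∪ S.offDiag.image fun q => dist q.1 q.2)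
    have hne : V.Nonempty := Finset.insert_nonempty _ _
    refine ⟨V.min' hne, (Finset.lt_min'_iff _ _).2 fun y hy => ?_, fun x hx y hy hxy => ?_,
      fun i => (hη' i).mono ?_⟩
    · simp only [V, Finset.mem_insert, Finset.mem_union, Finset.mem_image, Finset.mem_univ,
        true_and, Finset.mem_offDiag] at hy
      rcases hy with rfl | ⟨i, rfl⟩ | ⟨q, ⟨-, -, hq⟩, rfl⟩
      · exact one_pos
      · exact hη i
      · exact dist_pos.2 hq
    · refine V.min'_le _ ?_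
      simp only [V, Finset.mem_insert, Finset.mem_union, Finset.mem_image]
      exact Or.inr (Or.inr ⟨(x, y), Finset.mem_offDiag.2 ⟨hx, hy, hxy⟩, rfl⟩)
    · refine V.min'_le _ ?_
      simp [V]

/-- An axis line or the line of a point of `anc`. -/
def IsLine (anc : Finset E2) (h : ℝ) (a : E2) : Prop := (h = 0 ∧ a = 0) ∨ (h = 1 ∧ a ∈ anc)

lemma IsLine.mono {anc anc' : Finset E2} {h : ℝ} {a : E2} (hl : IsLine anc h a)
    (hs : anc ⊆ anc') : IsLine anc' h a :=
  hl.imp id fun hh => ⟨hh.1, hs hh.2⟩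

variable {k : ℕ}

/-- All segments of a phase have slope at most `σ` and their ends lie in `U`. -/
def Short (F : E2 → Euc k) (σ : ℝ) (U : Set E2) (P : Phase) : Prop :=
  ∀ i, ‖F (P.segR i) - F (P.segL i)‖ ≤ σ * ‖P.segR i - P.segL i‖ ∧ P.segR i ∈ U

lemma short_line {F : E2 → Euc k} {σ : ℝ} {U : Set E2} {P : Phase} (hP : Short F σ U P)
    (hl : P.lo ≤ P.hi) {h : ℝ} {a : E2} (ha : IsLine P.fixd h a) :
    ‖F (emb P.hi h a) - F (emb P.lo h a)‖ ≤ σ * (P.hi - P.lo) ∧ emb P.hi h a ∈ U := by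
  have e : ∀ (h : ℝ) (a : E2), ‖emb P.hi h a - emb P.lo h a‖ = P.hi - P.lo := fun h a => by
    rw [emb_sub, sub_self, map_zero, smul_zero, add_zero, norm_smul, norm_bv, mul_one,
      Real.norm_of_nonneg (by linarith)]
  rcases ha with ⟨rfl, rfl⟩ | ⟨rfl, ha⟩
  · have := hP none
    simp only [Phase.segL, Phase.segR, Phase.hL, Phase.hR, Phase.pt, e] at this
    exact this
  · have := hP (some (.inl ⟨a, ha⟩))
    simp only [Phase.segL, Phase.segR, Phase.hL, Phase.hR, Phase.pt, e] at this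
    exact this

lemma tent_norm {d : ℝ} (hd : 0 < d) {τ : ℝ} (hτ : τ ^ 2 = 1) {c : E2} (hc : ‖c‖ ≤ 1) :
    ‖emb d τ c‖ ≤ d + 1 / d := by
  refine (pow_le_pow_iff_left₀ (norm_nonneg _) (by positivity) two_ne_zero).1 ?_
  rw [norm_emb_sq, hτ, add_sq, one_mul]
  have : 2 * d * (1 / d) = 2 := by field_simp
  have h2 : ‖c‖ ^ 2 ≤ 1 := pow_le_one₀ (norm_nonneg _) hc
  nlinarith [sq_nonneg (1 / d)]

lemma short_tent {F : E2 → Euc k} {σ : ℝ} {U : Set E2} {P : Phase} (hP : Short F σ U P)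
    (hσ : 0 ≤ σ) (hl : P.lo < P.hi) {c : E2} (hc : c ∈ P.movd) (hn : ‖c‖ ≤ 1) :
    ‖F (emb P.hi P.h₁ c) - F (emb P.lo P.h₀ c)‖ ≤ σ * (P.hi - P.lo + 1 / (P.hi - P.lo)) ∧
      emb P.hi P.h₁ c ∈ U := by
  have := hP (some (.inr ⟨c, hc⟩))
  refine ⟨this.1.trans (mul_le_mul_of_nonneg_left ?_ hσ), this.2⟩
  simp only [Phase.segL, Phase.segR, Phase.hL, Phase.hR, Phase.pt]
  rw [show emb P.hi P.h₁ c - emb P.lo P.h₀ c = emb (P.hi - P.lo) (P.h₁ - P.h₀) c by
    simp only [emb]; module]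
  refine tent_norm (by linarith) ?_ hn
  simp only [Phase.h₀, Phase.h₁]
  split <;> norm_num

lemma norm_sub_le3 (x y z : Euc k) {a b : ℝ} (h1 : ‖y - x‖ ≤ a) (h2 : ‖z - y‖ ≤ b) :
    ‖z - x‖ ≤ a + b := by
  linarith [norm_sub_le_norm_sub_add_norm_sub z y x]

lemma chain_children {F : E2 → Euc k} {σ A t : ℝ} {m : ℕ} {ch : Fin m → PTree} (h : ℝ) (a : E2)
    (hstep : ∀ i : Fin m, ‖F (emb (childStart A t ch i + (ch i).width A) h a)
      - F (emb (childStart A t ch i) h a)‖ ≤ σ * (ch i).width A) :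
    ∀ i j, i ≤ j → j ≤ m → ‖F (emb (childStart A t ch j) h a) - F (emb (childStart A t ch i) h a)‖
      ≤ σ * (childStart A t ch j - childStart A t ch i) := by
  intro i j hij
  induction j, hij using Nat.le_induction with
  | base => intro _; simp
  | succ j _ ih =>
    intro hj
    have h1 := hstep ⟨j, hj⟩
    rw [← childStart_succ] at h1
    refine (norm_sub_le3 _ _ _ (ih (by omega)) h1).trans_eq ?_
    rw [show childStart A t ch (j + 1) = childStart A t ch j + (ch ⟨j, hj⟩).width A from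
      childStart_succ A t ch ⟨j, hj⟩]
    ring

lemma upper {F : E2 → Euc k} {σ A : ℝ} (hA : 1 ≤ A) {U : Set E2} :
    ∀ (T : PTree) (t : ℝ) (anc : Finset E2), (∀ P ∈ T.phases A t anc, Short F σ U P) →
      ∀ h a, IsLine anc h a →
        ‖F (emb (t + T.width A) h a) - F (emb t h a)‖ ≤ σ * T.width A
  | .node p pt m ch, t, anc, hS, h, a, ha => by
    have hA0 : (0 : ℝ) ≤ A := by linarith
    set W := (PTree.node p pt m ch).inner A with hW
    set t₁ := t + A * W with ht₁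
    have hWpos : 0 ≤ W := by linarith [inner_ge hA0 (.node p pt m ch)]
    have hmem := fun P => (mem_phases (A := A) (t := t) (pt := pt) (ch := ch) (anc := anc) (P := P)).2
    have h1 := (short_line (hS _ (hmem _ (Or.inl rfl)))
      (show t ≤ t₁ by nlinarith) ha).1
    have h2 := (short_line (hS _ (hmem _ (Or.inr (Or.inl rfl))))
      (show t₁ ≤ t₁ + 1000 by linarith) (ha.mono Finset.subset_union_left)).1
    have h4 := (short_line (hS _ (hmem _ (Or.inr (Or.inr (Or.inr rfl)))))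
      (show t₁ + W ≤ t + (PTree.node p pt m ch).width A by
        rw [PTree.width, ← hW]; nlinarith) ha).1
    have h3 := chain_children (F := F) (σ := σ) (A := A) (t := t₁ + 1000) (ch := ch) h a
      (fun i => upper hA (ch i) _ _ (fun P hP => hS P (hmem _ (Or.inr (Or.inr (Or.inl ⟨i, hP⟩)))))
        h a (ha.mono Finset.subset_union_left)) 0 m (Nat.zero_le _) le_rfl
    have he : t₁ + W = childStart A (t₁ + 1000) ch m := by
      rw [childStart_last, hW, inner_node]; ring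
    dsimp only at h1 h2 h4
    rw [childStart_zero, ← he] at h3
    refine (norm_sub_le3 _ _ _ (norm_sub_le3 _ _ _ (norm_sub_le3 _ _ _ h1 h2) h3) h4).trans_eq ?_
    ring

/-- Birth data of a line: prefix and suffix bounds, and the lower bound on its projection. -/
def Anch (F : E2 → Euc k) (u : Euc k) (s σ e D A L : ℝ) (a : E2) (v : Euc k) (t t' : ℝ) : Prop :=
  ∃ b d, 0 ≤ b ∧ b ≤ t ∧ t' ≤ d ∧ d ≤ L ∧ 1 ≤ d - b ∧
    ‖F (emb t 1 a) - F (emb b 1 a)‖ ≤ σ * (t - b) ∧
    ‖F (emb d 1 a) - F (emb t' 1 a)‖ ≤ σ * (d - t') ∧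
    s * (d - b) - 2 * e - 4 * D / (A * (d - b))
      ≤ inner ℝ u (F (emb d 1 a) - F (emb b 1 a)) ∧
    v = F (emb b 1 a) - (s * b) • u

/-- Constants of the equality case. -/
structure Consts (s σ e D A L ε η : ℝ) : Prop where
  s_one : 1 ≤ s
  s_le : s ≤ D
  σ_ge : s ≤ σ
  σ_le : σ ≤ 2 * D
  e_eq : e = (σ - s) * L
  A_one : 1 ≤ A
  ε_nonneg : 0 ≤ ε
  ε_eta : 4 * ε ≤ η
  η_nonneg : 0 ≤ η
  small : 12 * D * L * e + 16 * D ^ 2 / A + (3 * e + 4 * D / A) ^ 2 ≤ ε ^ 2

lemma Consts.mul_le {s σ e D A L ε η : ℝ} (c : Consts s σ e D A L ε η) {τ : ℝ} (hτ : τ ≤ L) :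
    σ * τ ≤ s * τ + e := by
  have := mul_le_mul_of_nonneg_left hτ (sub_nonneg.2 c.σ_ge)
  rw [c.e_eq]
  linarith

lemma anch_close {F : E2 → Euc k} {u : Euc k} {s σ e D A L ε η : ℝ}
    (c : Consts s σ e D A L ε η) (hu : ‖u‖ = 1) {a : E2} {v : Euc k} {t : ℝ}
    (h : Anch F u s σ e D A L a v t t) : ‖F (emb t 1 a) - v - (s * t) • u‖ ≤ ε := by
  obtain ⟨b, d, hb, hbt, htd, hdL, hbd, hpre, hsuf, hlow, rfl⟩ := h
  have hs0 : 0 ≤ s := by linarith [c.s_one]
  have hD0 : 0 ≤ D := by linarith [c.s_one, c.s_le]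
  have hA0 : 0 < A := by linarith [c.A_one]
  have he0 : 0 ≤ e := by
    rw [c.e_eq]
    exact mul_nonneg (sub_nonneg.2 c.σ_ge) (by linarith)
  set E := 3 * e + 4 * D / (A * (d - b)) with hE
  have hup := hpre.trans (c.mul_le (show t - b ≤ L by linarith))
  have hsi := inner_le_of_norm_le hu (hsuf.trans (c.mul_le (show d - t ≤ L by linarith)))
  have hq : 0 ≤ 4 * D / (A * (d - b)) := by
    have : 0 ≤ d - b := by linarith
    positivity
  have hlo : s * (t - b) - E ≤ inner ℝ u (F (emb t 1 a) - F (emb b 1 a)) := by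
    have : inner ℝ u (F (emb d 1 a) - F (emb b 1 a)) = inner ℝ u (F (emb d 1 a) - F (emb t 1 a))
        + inner ℝ u (F (emb t 1 a) - F (emb b 1 a)) := by
      rw [← inner_add_right]; congr 1; abel
    linarith
  have hsq := squeeze hu (mul_nonneg hs0 (show 0 ≤ t - b by linarith))
    (hup.trans (show s * (t - b) + e ≤ s * (t - b) + E by linarith)) hlo
  rw [show F (emb t 1 a) - (F (emb b 1 a) - (s * b) • u) - (s * t) • u
    = F (emb t 1 a) - F (emb b 1 a) - (s * (t - b)) • u by module]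
  refine (abs_le_of_sq_le_sq' (hsq.trans ?_) c.ε_nonneg).2
  refine le_trans ?_ c.small
  have hdb : 0 < d - b := by linarith
  have h1 : s * (t - b) * E ≤ D * L * (3 * e) + 4 * D ^ 2 / A := by
    have e1 : s * (t - b) * (3 * e) ≤ D * L * (3 * e) :=
      mul_le_mul_of_nonneg_right (mul_le_mul c.s_le (by linarith) (by linarith) hD0) (by linarith)
    have e2 : s * (t - b) * (4 * D / (A * (d - b))) ≤ 4 * D ^ 2 / A := by
      calc s * (t - b) * (4 * D / (A * (d - b))) ≤ D * (d - b) * (4 * D / (A * (d - b))) :=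
            mul_le_mul_of_nonneg_right (mul_le_mul c.s_le (by linarith) (by linarith) hD0) hq
        _ = _ := by field_simp
    rw [hE, mul_add]
    exact add_le_add e1 e2
  have h2 : E ≤ 3 * e + 4 * D / A := by
    rw [hE]
    have : 4 * D / (A * (d - b)) ≤ 4 * D / A :=
      div_le_div_of_nonneg_left (by linarith) hA0 (le_mul_of_one_le_right hA0.le hbd)
    linarith
  have h3 := pow_le_pow_left₀ (by rw [hE]; linarith) h2 2
  have h4 : 4 * (4 * D ^ 2 / A) = 16 * D ^ 2 / A := by ring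
  nlinarith

/-- The graph of a value assignment on `anc`. -/
def graph (anc : Finset E2) (φ : E2 → Euc k) : Set (E2 × Euc k) :=
  (fun a => (a, (2 : ℝ) • φ a)) '' ↑anc

lemma bilip_graph {F : E2 → Euc k} {u : Euc k} {s D ε η : ℝ} {U : Set E2} {anc : Finset E2}
    {φ : E2 → Euc k} {t : ℝ} (hD : 1 ≤ D) (h4 : 4 * ε ≤ η)
    (hU : ∀ a ∈ anc, emb t 1 a ∈ U)
    (hF : ∀ x ∈ U, ∀ y ∈ U, ‖x - y‖ ≤ ‖F x - F y‖ ∧ ‖F x - F y‖ ≤ D * ‖x - y‖)
    (hclose : ∀ a ∈ anc, ‖F (emb t 1 a) - φ a - (s * t) • u‖ ≤ ε)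
    (hsep : ∀ x ∈ anc, ∀ y ∈ anc, x ≠ y → η ≤ dist x y) :
    BiLipOn (4 * D) (graph anc φ) := by
  rintro _ ⟨a, ha, rfl⟩ _ ⟨b, hb, rfl⟩
  dsimp only
  rcases eq_or_ne a b with rfl | hab
  · simp
  obtain ⟨h1, h2⟩ := hF _ (hU a ha) _ (hU b hb)
  rw [← dist_eq_norm (emb t 1 a) (emb t 1 b), dist_emb_same, abs_one, one_mul, dist_eq_norm] at h1 h2
  have hη := hsep a ha b hb hab
  rw [dist_eq_norm] at hη
  have ca := hclose a ha
  have cb := hclose b hb
  have e1 : (φ a - φ b) - (F (emb t 1 a) - F (emb t 1 b))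
      = -(F (emb t 1 a) - φ a - (s * t) • u) + (F (emb t 1 b) - φ b - (s * t) • u) := by abel
  have e2 : ‖(φ a - φ b) - (F (emb t 1 a) - F (emb t 1 b))‖ ≤ 2 * ε := by
    rw [e1]
    refine (norm_add_le _ _).trans ?_
    rw [norm_neg]
    linarith
  have t1 := norm_le_norm_add_norm_sub' (F (emb t 1 a) - F (emb t 1 b)) (φ a - φ b)
  have t2 := norm_le_norm_add_norm_sub' (φ a - φ b) (F (emb t 1 a) - F (emb t 1 b))
  rw [norm_sub_rev (F (emb t 1 a) - F (emb t 1 b)) (φ a - φ b)] at t1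
  rw [← smul_sub, norm_smul, Real.norm_of_nonneg two_pos.le]
  have := mul_le_mul_of_nonneg_right hD (norm_nonneg (a - b))
  constructor <;> linarith

lemma birth_lower {F : E2 → Euc k} {u : Euc k} {s σ e D A L ε η : ℝ}
    (c : Consts s σ e D A L ε η) (hu : ‖u‖ = 1)
    (hchord : inner ℝ u (F (emb L 0 0) - F (emb 0 0 0)) = s * L)
    {t t₁ t₂ t₃ W : ℝ} {y : E2} (ht : 0 ≤ t) (h12 : t₁ ≤ t₂) (h3 : t₃ ≤ L) (hW : 0 < W)
    (e1 : t₁ - t = A * W) (e3 : t₃ - t₂ = A * W) (e2 : t₂ - t₁ = W)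
    (hpre : ‖F (emb t 0 0) - F (emb 0 0 0)‖ ≤ σ * t)
    (hsuf : ‖F (emb L 0 0) - F (emb t₃ 0 0)‖ ≤ σ * (L - t₃))
    (hup : ‖F (emb t₁ 1 y) - F (emb t 0 0)‖ ≤ σ * (t₁ - t + 1 / (t₁ - t)))
    (hdown : ‖F (emb t₃ 0 0) - F (emb t₂ 1 y)‖ ≤ σ * (t₃ - t₂ + 1 / (t₃ - t₂))) :
    s * (t₂ - t₁) - 2 * e - 4 * D / (A * (t₂ - t₁))
      ≤ inner ℝ u (F (emb t₂ 1 y) - F (emb t₁ 1 y)) := by
  have hA0 : 0 < A := by linarith [c.A_one]
  have hAW : 0 < A * W := mul_pos hA0 hW
  have a1 := norm_sub_le3 _ _ _ hpre hup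
  have a2 := norm_sub_le3 _ _ _ hdown hsuf
  have i1 := inner_le_of_norm_le hu a1
  have i2 := inner_le_of_norm_le hu a2
  have m1 := c.mul_le (show t₁ ≤ L by linarith)
  have m2 := c.mul_le (show L - t₂ ≤ L by linarith)
  have hdiv : ∀ x, x = A * W → σ * (1 / x) ≤ 2 * D / (A * W) := fun x hx => by
    subst hx
    rw [mul_one_div]
    exact div_le_div_of_nonneg_right c.σ_le hAW.le
  have d1 := hdiv _ e1
  have d2 := hdiv _ e3
  have hsum : inner ℝ u (F (emb L 0 0) - F (emb 0 0 0))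
      = inner ℝ u (F (emb t₁ 1 y) - F (emb 0 0 0))
        + inner ℝ u (F (emb t₂ 1 y) - F (emb t₁ 1 y))
        + inner ℝ u (F (emb L 0 0) - F (emb t₂ 1 y)) := by
    rw [← inner_add_right, ← inner_add_right]; congr 1; abel
  rw [hchord] at hsum
  rw [e2]
  have e4 : 4 * D / (A * W) = 2 * D / (A * W) + 2 * D / (A * W) := by ring
  rw [e4]
  have : s * L = s * t₁ + s * W + s * (L - t₂) := by rw [← e2]; ring
  linarith

theorem emb_of_short {F : E2 → Euc k} {u : Euc k} {s σ e D A L ε η : ℝ}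
    (c : Consts s σ e D A L ε η) (hu : ‖u‖ = 1)
    (hchord : inner ℝ u (F (emb L 0 0) - F (emb 0 0 0)) = s * L) {U : Set E2}
    (hF : ∀ x ∈ U, ∀ y ∈ U, ‖x - y‖ ≤ ‖F x - F y‖ ∧ ‖F x - F y‖ ≤ D * ‖x - y‖) {N : ℕ} :
    ∀ (T : PTree) (t : ℝ) (anc : Finset E2) (φ : E2 → Euc k),
      TreeGood N T ↑anc → SepT η T anc → (∀ P ∈ T.phases A t anc, Short F σ U P) →
      0 ≤ t → t + T.width A ≤ L →
      ‖F (emb t 0 0) - F (emb 0 0 0)‖ ≤ σ * t →
      ‖F (emb L 0 0) - F (emb (t + T.width A) 0 0)‖ ≤ σ * (L - (t + T.width A)) →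
      (∀ a ∈ anc, Anch F u s σ e D A L a (φ a) t (t + T.width A)) →
      Emb k (4 * D) T (graph anc φ)
  | .node p pt m ch, t, anc, φ, hG, hsep, hS, ht, htL, hpre, hsuf, hanc => by
    obtain ⟨-, hpt, -, hchG⟩ := hG
    obtain ⟨hsepS, hsepch⟩ := hsep
    have hA := c.A_one
    have hA0 : (0 : ℝ) ≤ A := by linarith
    have hσ0 : 0 ≤ σ := by linarith [c.s_one, c.σ_ge]
    set W := (PTree.node p pt m ch).inner A with hW
    set t₁ := t + A * W with ht₁
    set t₂ := t₁ + W with ht₂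
    set t₃ := t + (PTree.node p pt m ch).width A with ht₃
    set S : Finset E2 := Finset.univ.image pt with hSdef
    have hW0 : 1000 ≤ W := inner_ge hA0 _
    have hAW : 1000 ≤ A * W := by nlinarith
    have e3 : t₃ - t₂ = A * W := by
      simp only [ht₃, ht₂, ht₁, PTree.width, ← hW]; ring
    have hmem := fun P => (mem_phases (A := A) (t := t) (pt := pt) (ch := ch) (anc := anc) (P := P)).2
    have p1 := hS _ (hmem _ (Or.inl rfl))
    have p2 := hS _ (hmem _ (Or.inr (Or.inl rfl)))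
    have p4 := hS _ (hmem _ (Or.inr (Or.inr (Or.inr rfl))))
    set cs := childStart A (t₁ + 1000) ch with hcs
    have hlast : cs m = t₂ := by
      rw [hcs, childStart_last, ht₂, hW, inner_node]; ring
    -- the inner chain
    have hin : ∀ h a, IsLine (anc ∪ S) h a → ∀ i ≤ m,
        ‖F (emb (cs i) h a) - F (emb t₁ h a)‖ ≤ σ * (cs i - t₁) ∧
          ‖F (emb t₂ h a) - F (emb (cs i) h a)‖ ≤ σ * (t₂ - cs i) := by
      intro h a ha i hi
      have hch := chain_children (F := F) (σ := σ) (A := A) (t := t₁ + 1000) (ch := ch) h a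
        (fun j => upper hA (ch j) _ _
          (fun P hP => hS P (hmem _ (Or.inr (Or.inr (Or.inl ⟨j, hP⟩))))) h a ha)
      constructor
      · have h2 := (short_line p2 (show t₁ ≤ t₁ + 1000 by linarith) ha).1
        have h3 := hch 0 i (Nat.zero_le _) hi
        rw [childStart_zero] at h3
        dsimp only at h2
        exact (norm_sub_le3 _ _ _ h2 h3).trans_eq (by rw [← hcs]; ring)
      · have h3 := hch i m hi le_rfl
        rw [← hcs, hlast] at h3
        exact h3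
    have hline : ∀ h a, IsLine anc h a →
        ‖F (emb t₁ h a) - F (emb t h a)‖ ≤ σ * (t₁ - t) ∧
          ‖F (emb t₃ h a) - F (emb t₂ h a)‖ ≤ σ * (t₃ - t₂) := fun h a ha =>
      ⟨(short_line p1 (show t ≤ t₁ by linarith) ha).1,
        (short_line p4 (show t₂ ≤ t₃ by linarith) ha).1⟩
    let φ' : E2 → Euc k := fun y => if y ∈ S then F (emb t₁ 1 y) - (s * t₁) • u else φ y
    have hφold : ∀ a ∈ anc, φ' a = φ a := by
      intro a ha
      have : a ∉ S := fun hS' => by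
        obtain ⟨i, -, rfl⟩ := Finset.mem_image.1 hS'
        exact (hpt i).1 ha
      simp only [φ', if_neg this]
    have hφnew : ∀ y ∈ S, φ' y = F (emb t₁ 1 y) - (s * t₁) • u := fun y hy => by
      simp only [φ', if_pos hy]
    have hnormS : ∀ y ∈ S, ‖y‖ ≤ 1 := by
      intro y hy
      obtain ⟨i, -, rfl⟩ := Finset.mem_image.1 hy
      exact (hpt i).2
    have hnew : ∀ y ∈ S, Anch F u s σ e D A L y (φ' y) t₁ t₂ := by
      intro y hy
      refine ⟨t₁, t₂, by linarith, le_rfl, le_rfl, by linarith, by linarith, ?_, ?_, ?_,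
        hφnew y hy⟩
      · simp
      · simp
      have q1 := (short_tent p1 hσ0 (show t < t₁ by linarith) hy (hnormS y hy)).1
      have q4 := (short_tent p4 hσ0 (show t₂ < t₃ by linarith) hy (hnormS y hy)).1
      simp only [Phase.h₀, Phase.h₁, if_true, Bool.false_eq_true, if_false] at q1 q4
      rw [emb_zero_height t y, ← emb_zero_height t 0] at q1
      rw [emb_zero_height t₃ y, ← emb_zero_height t₃ 0] at q4
      exact birth_lower c hu hchord ht (by linarith) htL (by linarith) (by linarith) e3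
        (by linarith) hpre hsuf q1 q4
    have hall : ∀ a ∈ anc ∪ S, Anch F u s σ e D A L a (φ' a) t₁ t₂ := by
      intro a ha
      rcases Finset.mem_union.1 ha with ha | ha
      · obtain ⟨b, d, hb, hbt, htd, hdL, hbd, hp, hs, hlow, hv⟩ := hanc a ha
        obtain ⟨l1, l2⟩ := hline 1 a (Or.inr ⟨rfl, ha⟩)
        refine ⟨b, d, hb, by linarith, by linarith, hdL, hbd,
          (norm_sub_le3 _ _ _ hp l1).trans_eq (by ring),
          (norm_sub_le3 _ _ _ l2 hs).trans_eq (by ring), hlow, (hφold a ha).trans hv⟩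
      · exact hnew a ha
    have hUmem : ∀ a ∈ anc ∪ S, emb t₁ 1 a ∈ U := by
      intro a ha
      rcases Finset.mem_union.1 ha with ha | ha
      · exact (short_line p1 (show t ≤ t₁ by linarith) (Or.inr ⟨rfl, ha⟩)).2
      · have := (short_tent p1 hσ0 (show t < t₁ by linarith) ha (hnormS a ha)).2
        simpa [Phase.h₁] using this
    have hclose : ∀ a ∈ anc ∪ S, ‖F (emb t₁ 1 a) - φ' a - (s * t₁) • u‖ ≤ ε := by
      intro a ha
      obtain ⟨b, d, hb, hbt, htd, hdL, hbd, hp, hs, hlow, hv⟩ := hall a ha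
      obtain ⟨g1, g2⟩ := hin 1 a (Or.inr ⟨rfl, ha⟩) 0 (Nat.zero_le _)
      refine anch_close c hu ⟨b, d, hb, hbt, by linarith, hdL, hbd, hp, ?_, hlow, hv⟩
      exact (norm_sub_le3 _ _ _ (norm_sub_le3 _ _ _ g1 g2) hs).trans_eq (by ring)
    have hgraph : graph anc φ ∪ range (fun i => (pt i, (2 : ℝ) • φ' (pt i)))
        = graph (anc ∪ S) φ' := by
      simp only [graph, hSdef, Finset.coe_union, Finset.coe_image, Finset.coe_univ, image_univ,
        image_union]
      congr 1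
      · exact image_congr fun a ha => by rw [hφold a ha]
      · rw [← range_comp]; rfl
    refine ⟨fun i => (2 : ℝ) • φ' (pt i), ?_, fun i => ?_⟩
    · rw [hgraph]
      exact bilip_graph (by linarith [c.s_one, c.s_le]) c.ε_eta hUmem hF hclose hsepS
    rw [hgraph]
    have hi1 : (i : ℕ) ≤ m := i.2.le
    have hi2 : (i : ℕ) + 1 ≤ m := i.2
    obtain ⟨hb1, hb2⟩ := childStart_bounds (t := t₁ + 1000) hA0 ch i
    have hend : cs i + (ch i).width A = cs (i + 1) := (childStart_succ _ _ ch i).symm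
    obtain ⟨a1, a2⟩ := hline 0 0 (Or.inl ⟨rfl, rfl⟩)
    obtain ⟨a3, -⟩ := hin 0 0 (Or.inl ⟨rfl, rfl⟩) i hi1
    obtain ⟨-, a4⟩ := hin 0 0 (Or.inl ⟨rfl, rfl⟩) (i + 1) hi2
    refine emb_of_short (N := N) c hu hchord hF (ch i) (cs i) (anc ∪ S) φ' ?_ (hsepch i)
      (fun P hP => hS P (hmem _ (Or.inr (Or.inr (Or.inl ⟨i, hP⟩))))) (by linarith) ?_ ?_ ?_ ?_
    · simpa [hSdef] using hchG i
    · have : (PTree.node p pt m ch).inner A = 1000 + ∑ j, (ch j).width A := rfl
      rw [← hW] at this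
      linarith
    · exact (norm_sub_le3 _ _ _ (norm_sub_le3 _ _ _ hpre a1) a3).trans_eq (by ring)
    · rw [hend]
      exact (norm_sub_le3 _ _ _ (norm_sub_le3 _ _ _ a4 a2) hsuf).trans_eq (by ring)
    · intro a ha
      obtain ⟨b, d, hb, hbt, htd, hdL, hbd, hp, hs, hlow, hv⟩ := hall a ha
      obtain ⟨g1, -⟩ := hin 1 a (Or.inr ⟨rfl, ha⟩) i hi1
      obtain ⟨-, g2⟩ := hin 1 a (Or.inr ⟨rfl, ha⟩) (i + 1) hi2
      have hb3 : cs (i + 1) ≤ t₂ := hlast ▸ childStart_mono hA0 ch hi2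
      rw [hend]
      exact ⟨b, d, hb, by linarith, by linarith, hdL, hbd,
        (norm_sub_le3 _ _ _ hp g1).trans_eq (by ring),
        (norm_sub_le3 _ _ _ g2 hs).trans_eq (by ring), hlow, hv⟩

end Vale.Agent.P208
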