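import Vale.Agent.P208.Sweep
import Vale.Agent.P208.Transport

/-!
Iterating the gadget of a tree gives a finite-dimensional-embedding obstruction with uniform
doubling constant.
-/

open Metric Set
open scoped Classical

namespace Vale.Agent.P208

/-- `f` is bi-Lipschitz on `S` with distortion at most `D` (scale one). -/
def BiOn {k : ℕ} (D : ℝ) (f : E2 → Euc k) (S : Set E2) : Prop :=
  ∀ x ∈ S, ∀ y ∈ S, ‖x - y‖ ≤ ‖f x - f y‖ ∧ ‖f x - f y‖ ≤ D * ‖x - y‖

namespace Layout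

variable {N : ℕ} (Y : Layout N)

lemma nrm_dist (x y : E2) : ‖Y.nrm.app x - Y.nrm.app y‖ = 2 / Y.L * ‖x - y‖ := by
  rw [← dist_eq_norm, Sim.dist_app, dist_eq_norm]; rfl

lemma nrm_zero : Y.nrm.app (emb 0 0 0) = -bv 0 := by
  simp [nrm, Sim.app, emb]

lemma nrm_L : Y.nrm.app (emb Y.L 0 0) = bv 0 := by
  have := Y.pos
  simp only [nrm, Sim.app, emb, LinearIsometryEquiv.coe_refl, id_eq]
  match_scalars
  all_goals field_simp
  all_goals norm_num

end Layout

lemma bilip_normalise {k : ℕ} {D : ℝ} {f : E2 → Euc k} (g : Sim) {S : Set E2}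
    (h : BiOn D f (g.app '' S)) : BiOn D (fun z => g.σ⁻¹ • f (g.app z)) S := by
  intro x hx y hy
  obtain ⟨h1, h2⟩ := h _ (mem_image_of_mem _ hx) _ (mem_image_of_mem _ hy)
  rw [← dist_eq_norm (g.app x), Sim.dist_app, dist_eq_norm] at h1 h2
  dsimp only
  rw [← smul_sub, norm_smul, norm_inv, Real.norm_of_nonneg g.pos.le]
  constructor
  · rw [le_inv_mul_iff₀ g.pos]; exact h1
  · rw [inv_mul_le_iff₀ g.pos]; linarith

lemma norm_two_bv : ‖bv 0 - -bv 0‖ = 2 := by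
  rw [sub_neg_eq_add, ← two_smul ℝ, norm_smul, norm_bv]; norm_num

/-- Key step: without a gain on some piece, the tree would embed. -/
lemma exists_gain {N : ℕ} {k : ℕ} {D δ κ η A : ℝ} {T : PTree} (hG : TreeGood N T ∅)
    (hT : ¬ Emb k (4 * D) T ∅) (hA : 1 ≤ A) (hη : 0 < η) (hsep : SepT η T ∅)
    (hκ : 0 < κ) (hκ' : κ < 1 / 2) (hδ : 0 < δ) (hσ : D * (1 + δ) + 2 * D * κ ≤ 2 * D)
    (Y : Layout N) (hY : Y = T.layout hA hG)
    (hsmall : ∀ e, 0 ≤ e → e ≤ (D * δ + 2 * D * κ) * Y.L →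
      12 * D * Y.L * e + 16 * D ^ 2 / A + (3 * e + 4 * D / A) ^ 2 ≤ (η / 4) ^ 2)
    {K : Y.Seg → ℕ} (hK : ∀ g, 0 < K g) {f : E2 → Euc k}
    (hf : BiOn D f Y.base) {s : ℝ} (hs1 : 1 ≤ s) (hsD : s ≤ D)
    (hs : ‖f (bv 0) - f (-bv 0)‖ = 2 * s) :
    ∃ x, s * (1 + δ) * ‖Y.pieceR κ K x - Y.pieceL κ K x‖
      < ‖f (Y.pieceR κ K x) - f (Y.pieceL κ K x)‖ := by
  by_contra hno
  push Not at hno
  refine hT ?_
  have hL := Y.pos
  have hD1 : 1 ≤ D := hs1.trans hsD
  set σ := s * (1 + δ) + 2 * D * κ with hσdef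
  have hσ0 : 0 ≤ σ := by positivity
  let F : E2 → Euc k := fun x => (Y.L / 2) • f (Y.nrm.app x)
  have hmem : ∀ g : Y.Seg, Y.gL g ∈ Y.base ∧ Y.gR g ∈ Y.base ∧
      ∀ l ≤ K g, mark κ (Y.gL g) (Y.gR g) (K g) l ∈ Y.base := fun g =>
    ⟨mem_iUnion.2 ⟨g, left_mem_segment _ _ _⟩, mem_iUnion.2 ⟨g, right_mem_segment _ _ _⟩,
      fun l hl => mem_iUnion.2 ⟨g, core_subset_segment hκ.le _ _
        (mark_mem_core hκ' _ _ (hK g) hl)⟩⟩
  have hseg : ∀ g : Y.Seg, ‖f (Y.gR g) - f (Y.gL g)‖ ≤ σ * ‖Y.gR g - Y.gL g‖ := by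
    intro g
    obtain ⟨h1, h2, h3⟩ := hmem g
    exact chain_bound f hκ.le hκ' (by positivity) _ _ (hK g)
      (hf _ (h3 0 (Nat.zero_le _)) _ h1).2 (hf _ (h3 _ le_rfl) _ h2).2
      (fun l hl => hno ⟨g, ⟨l, hl⟩⟩)
  have hF : ∀ x ∈ Y.raw, ∀ y ∈ Y.raw, ‖x - y‖ ≤ ‖F x - F y‖ ∧ ‖F x - F y‖ ≤ D * ‖x - y‖ := by
    intro x hx y hy
    obtain ⟨h1, h2⟩ := hf _ (Y.base_eq ▸ mem_image_of_mem _ hx) _
      (Y.base_eq ▸ mem_image_of_mem _ hy)
    rw [Y.nrm_dist] at h1 h2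
    simp only [F]
    rw [← smul_sub, norm_smul, Real.norm_of_nonneg (by positivity)]
    have e : Y.L / 2 * (2 / Y.L * ‖x - y‖) = ‖x - y‖ := by field_simp
    constructor
    · calc ‖x - y‖ = Y.L / 2 * (2 / Y.L * ‖x - y‖) := e.symm
        _ ≤ _ := mul_le_mul_of_nonneg_left h1 (by positivity)
    · calc _ ≤ Y.L / 2 * (D * (2 / Y.L * ‖x - y‖)) :=
            mul_le_mul_of_nonneg_left h2 (by positivity)
        _ = _ := by rw [← mul_assoc, mul_comm (Y.L / 2) D, mul_assoc, e]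
  have hshort : ∀ P ∈ T.phases A 0 ∅, Short F σ Y.raw P := by
    intro P hP i
    obtain ⟨j, hj⟩ := List.get_of_mem (show P ∈ Y.ps by rw [hY]; exact hP)
    subst hj
    refine ⟨?_, mem_iUnion.2 ⟨j, mem_iUnion.2 ⟨i, right_mem_segment _ _ _⟩⟩⟩
    have h := hseg ⟨j, i⟩
    simp only [Layout.gL, Layout.gR, Layout.phase] at h
    rw [Y.nrm_dist] at h
    simp only [F]
    rw [← smul_sub, norm_smul, Real.norm_of_nonneg (by positivity)]
    refine (mul_le_mul_of_nonneg_left h (by positivity)).trans_eq ?_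
    field_simp
  set B := f (bv 0) - f (-bv 0) with hB
  set u := (2 * s)⁻¹ • B with hu
  have hu1 : ‖u‖ = 1 := by
    rw [hu, norm_smul, norm_inv, Real.norm_of_nonneg (by linarith), hs]
    exact inv_mul_cancel₀ (by linarith)
  have hchord : inner ℝ u (F (emb Y.L 0 0) - F (emb 0 0 0)) = s * Y.L := by
    simp only [F]
    rw [Y.nrm_L, Y.nrm_zero, ← smul_sub, ← hB, hu, real_inner_smul_left, real_inner_smul_right,
      real_inner_self_eq_norm_sq, hs]
    field_simp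
    try ring
  have hc : Consts s σ ((σ - s) * Y.L) D A Y.L (η / 4) η := by
    refine ⟨hs1, hsD, ?_, ?_, rfl, hA, by linarith, by linarith, hη.le, hsmall _ ?_ ?_⟩
    · rw [hσdef]; nlinarith
    · rw [hσdef]; nlinarith
    · refine mul_nonneg ?_ hL.le
      rw [hσdef]; nlinarith
    · refine mul_le_mul_of_nonneg_right ?_ hL.le
      rw [hσdef]; nlinarith
  have h0 := emb_of_short (N := N) hc hu1 hchord hF T 0 ∅ (fun _ => 0) (by simpa using hG) hsep
    hshort le_rfl (by rw [hY, zero_add]; exact le_rfl) (by simp) (by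
      have e : 0 + T.width A = Y.L := by rw [hY, zero_add]; rfl
      rw [e]; simp) (by simp)
  simpa [graph] using h0

lemma no_nest_embedding {N : ℕ} {k : ℕ} {D δ κ η A : ℝ} {T : PTree} (hG : TreeGood N T ∅)
    (hT : ¬ Emb k (4 * D) T ∅) (hA : 1 ≤ A) (hη : 0 < η) (hsep : SepT η T ∅)
    (hκ : 0 < κ) (hκ' : κ < 1 / 2) (hδ : 0 < δ) (hσ : D * (1 + δ) + 2 * D * κ ≤ 2 * D)
    (Y : Layout N) (hY : Y = T.layout hA hG)
    (hsmall : ∀ e, 0 ≤ e → e ≤ (D * δ + 2 * D * κ) * Y.L →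
      12 * D * Y.L * e + 16 * D ^ 2 / A + (3 * e + 4 * D / A) ^ 2 ≤ (η / 4) ^ 2)
    {K : Y.Seg → ℕ} (hK : ∀ g, 0 < K g)
    (hne : ∀ x, Y.pieceL κ K x ≠ Y.pieceR κ K x)
    (hbase : ∀ r, axisSeg ⊆ (Y.nest κ K r).base) :
    ∀ (r : ℕ) (g : Sim) (f : E2 → Euc k) (s : ℝ),
      BiOn D f (g.app '' (Y.nest κ K r).carrier) → 1 ≤ s →
      s * (2 * g.σ) ≤ ‖f (g.app (bv 0)) - f (g.app (-bv 0))‖ → D < s * (1 + δ) ^ r → False := by
  have hends : ∀ r, bv 0 ∈ (Y.nest κ K r).carrier ∧ -bv 0 ∈ (Y.nest κ K r).carrier := fun r =>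
    ⟨Nest.base_subset_carrier _ (hbase r (right_mem_segment _ _ _)),
      Nest.base_subset_carrier _ (hbase r (left_mem_segment _ _ _))⟩
  intro r
  induction r with
  | zero =>
    intro g f s hf _ hs hlt
    have h := (bilip_normalise g hf _ (hends 0).1 _ (hends 0).2).2
    dsimp only at h
    rw [← smul_sub, norm_smul, norm_inv, Real.norm_of_nonneg g.pos.le, inv_mul_le_iff₀ g.pos,
      norm_two_bv] at h
    simp only [pow_zero, mul_one] at hlt
    nlinarith [g.pos]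
  | succ r ih =>
    intro g f s hf hs1 hs hlt
    set F := fun z => g.σ⁻¹ • f (g.app z) with hFdef
    have hF := bilip_normalise g hf
    have hbd := (hF _ (hends _).1 _ (hends _).2).2
    set s₀ := ‖F (bv 0) - F (-bv 0)‖ / 2 with hs₀
    have hs₀' : s ≤ s₀ := by
      rw [hs₀, hFdef]
      dsimp only
      rw [← smul_sub, norm_smul, norm_inv, Real.norm_of_nonneg g.pos.le, le_div_iff₀ two_pos,
        le_inv_mul_iff₀ g.pos]
      linarith
    have hs₀D : s₀ ≤ D := by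
      rw [norm_two_bv] at hbd
      rw [hs₀, div_le_iff₀ two_pos]
      exact hbd
    have hsub : Y.base ⊆ (Y.nest κ K (r + 1)).carrier := subset_union_left
    obtain ⟨x, hx⟩ := exists_gain hG hT hA hη hsep hκ hκ' hδ hσ Y hY hsmall hK
      (fun a ha b hb => hF a (hsub ha) b (hsub hb)) (hs1.trans hs₀') hs₀D
      (show ‖F (bv 0) - F (-bv 0)‖ = 2 * s₀ by rw [hs₀]; ring)
    have hp : Y.piece κ K x = Sim.place _ _ (hne x) := dif_pos (hne x)
    refine ih (g.comp (Y.piece κ K x)) f (s * (1 + δ)) ?_ ?_ ?_ ?_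
    · intro a ha b hb
      have hin : (g.comp (Y.piece κ K x)).app '' (Y.nest κ K r).carrier
          ⊆ g.app '' (Y.nest κ K (r + 1)).carrier := by
        rintro _ ⟨z, hz, rfl⟩
        rw [Sim.comp_app]
        refine mem_image_of_mem _ (Or.inr (mem_iUnion.2 ⟨Fintype.equivFin _ x, ?_⟩))
        dsimp only
        rw [Equiv.symm_apply_apply, Nest.map_carrier]
        exact mem_image_of_mem _ hz
      exact hf a (hin ha) b (hin hb)
    · nlinarith
    · rw [← smul_sub, norm_smul, norm_inv, Real.norm_of_nonneg g.pos.le,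
        lt_inv_mul_iff₀ g.pos] at hx
      rw [Sim.comp_app, Sim.comp_app, hp, Sim.place_left, Sim.place_right]
      refine le_trans ?_ hx.le
      have e : (g.comp (Sim.place _ _ (hne x))).σ
          = g.σ * (‖Y.pieceR κ K x - Y.pieceL κ K x‖ / 2) := rfl
      rw [e]
      have : s * (1 + δ) ≤ s₀ * (1 + δ) := mul_le_mul_of_nonneg_right hs₀' (by linarith)
      nlinarith [mul_le_mul_of_nonneg_right this
        (mul_nonneg g.pos.le (norm_nonneg (Y.pieceR κ K x - Y.pieceL κ K x)))]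
    · rwa [pow_succ', ← mul_assoc] at hlt

/-- The covering constant of the finite obstructions. -/
def N₃ (N : ℕ) : ℕ := Layout.N₂ N ^ 3 + Layout.N₂ N ^ 10 * Layout.N₂ N ^ 3

/-- From a tree that does not embed to a bounded doubling set that does not embed. -/
theorem tree_to_set {N : ℕ} {k : ℕ} {D : ℝ} (hD : 1 ≤ D) {T : PTree} (hG : TreeGood N T ∅)
    (hT : ¬ Emb k (4 * D) T ∅) :
    ∃ X : Set E2, X ⊆ closedBall 0 1 ∧ Cov (N₃ N) X ∧ ∀ f : E2 → Euc k, ¬ BiOn D f X := by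
  obtain ⟨η₀, hη₀, hsep₀⟩ := exists_sep T ∅
  set η := min η₀ 1 with hηdef
  have hη : 0 < η := lt_min hη₀ one_pos
  have hη1 : η ≤ 1 := min_le_right _ _
  have hsep : SepT η T ∅ := hsep₀.mono (min_le_left _ _)
  set A := 1 + 1000 * D ^ 2 / η ^ 2 with hAdef
  have hA : 1 ≤ A := le_add_of_nonneg_right (by positivity)
  set Y := T.layout hA hG with hY
  have hL := Y.pos
  set e₀ := η ^ 2 / (1200 * D * Y.L + 300) with he₀
  have he₀p : 0 < e₀ := by positivity
  set δ := min (e₀ / (3 * D * Y.L)) (1 / 4) with hδdef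
  have hδ : 0 < δ := lt_min (by positivity) (by norm_num)
  have hδ4 : δ ≤ 1 / 4 := min_le_right _ _
  obtain ⟨K, hK, hne, hWF⟩ := Y.exists_nest hδ (show δ < 1 / 2 by linarith)
  obtain ⟨n, hn⟩ := pow_unbounded_of_one_lt D (show 1 < 1 + δ by linarith)
  obtain ⟨hW, hcen, hrad, hax⟩ := hWF n
  refine ⟨(Y.nest δ K n).carrier, ?_, Nest.cov_carrier _ _ hW, fun f hf => ?_⟩
  · have := Nest.carrier_subset hW
    rwa [hcen, hrad] at this
  have hσ : D * (1 + δ) + 2 * D * δ ≤ 2 * D := by nlinarith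
  have hsmall : ∀ e, 0 ≤ e → e ≤ (D * δ + 2 * D * δ) * Y.L →
      12 * D * Y.L * e + 16 * D ^ 2 / A + (3 * e + 4 * D / A) ^ 2 ≤ (η / 4) ^ 2 := by
    intro e he0 he
    have he' : e ≤ e₀ := by
      refine he.trans ?_
      calc (D * δ + 2 * D * δ) * Y.L = δ * (3 * D * Y.L) := by ring
        _ ≤ e₀ / (3 * D * Y.L) * (3 * D * Y.L) :=
            mul_le_mul_of_nonneg_right (min_le_left _ _) (by positivity)
        _ = e₀ := div_mul_cancel₀ _ (by positivity)
    have he'' : e * (1200 * D * Y.L + 300) ≤ η ^ 2 := by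
      refine (mul_le_mul_of_nonneg_right he' (by positivity)).trans_eq ?_
      rw [he₀]; exact div_mul_cancel₀ _ (by positivity)
    have q1 : 0 ≤ e * (D * Y.L) := by positivity
    have a1 : 12 * D * Y.L * e ≤ η ^ 2 / 100 := by nlinarith
    have a2 : 3 * e ≤ η ^ 2 / 100 := by nlinarith
    have hA1 : A * η ^ 2 = η ^ 2 + 1000 * D ^ 2 := by
      rw [hAdef, add_mul, one_mul, div_mul_cancel₀ _ (by positivity)]
    have hA0 : 0 < A := by linarith
    have hη2 : 0 ≤ η ^ 2 := sq_nonneg η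
    have a3 : 16 * D ^ 2 / A ≤ η ^ 2 * (16 / 1000) := by
      rw [div_le_iff₀ hA0]; nlinarith
    have a4 : 4 * D / A ≤ η ^ 2 * (4 / 1000) := by
      rw [div_le_iff₀ hA0]; nlinarith
    have a5 : η ^ 2 ≤ η := by nlinarith
    have a6 : 3 * e + 4 * D / A ≤ η * (14 / 1000) := by nlinarith
    have a7 : 0 ≤ 3 * e + 4 * D / A := by positivity
    have a8 := pow_le_pow_left₀ a7 a6 2
    nlinarith
  refine no_nest_embedding hG hT hA hη hsep hδ (by linarith) hδ hσ Y hY hsmall hK hne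
    (fun r => (hWF r).2.2.2) n Sim.one f 1 ?_ le_rfl ?_ (by simpa using hn)
  · intro a ha b hb
    rw [image_congr fun z _ => Sim.one_app z, image_id'] at ha hb
    exact hf a ha b hb
  · have hends : bv 0 ∈ (Y.nest δ K n).carrier ∧ -bv 0 ∈ (Y.nest δ K n).carrier :=
      ⟨Nest.base_subset_carrier _ (hax (right_mem_segment _ _ _)),
        Nest.base_subset_carrier _ (hax (left_mem_segment _ _ _))⟩
    have h := (hf _ hends.1 _ hends.2).1
    rw [norm_two_bv] at h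
    rw [Sim.one_app, Sim.one_app]
    simpa [Sim.one] using h

end Vale.Agent.P208
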