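import Vale.Agent.P208.Tree

open Metric Set

namespace Vale.Agent.P208

open Stack TreeCon

variable {M : ℕ} {ρ κ : ℝ} {K : TreeCon.Pair M → Fin 2 × Fin 4 → ℕ}

lemma norm_leg {w ρ : ℝ} {n : ℕ} (hn : n ≠ 0) (σ : ℝ) (hσ : σ = 1 ∨ σ = -1) (hw : |w| ≤ 1 / 2) :
    ‖(w • bv 0 + ρ • bv n) - σ • bv 0‖ ≤ 1 - σ * w + ρ ^ 2 := by
  rw [show (w • bv 0 + ρ • bv n) - σ • bv 0 = (w - σ) • bv 0 + ρ • bv n by module]
  have h := norm_combo (w - σ) ρ hn
  rw [abs_le] at hw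
  have hb : 1 / 2 ≤ 1 - σ * w := by rcases hσ with rfl | rfl <;> linarith
  have he : (w - σ) ^ 2 = (1 - σ * w) ^ 2 := by rcases hσ with rfl | rfl <;> ring
  rw [he] at h
  nlinarith [norm_nonneg ((w - σ) • bv 0 + ρ • bv n), sq_nonneg ρ]

lemma stack_close {k : ℕ} {u A B P Q : Euc k} {s σ w ρ D m : ℝ} (hu : ‖u‖ = 1) (hs : 1 ≤ s)
    (hsD : s ≤ D) (hρ : 0 < ρ) (hρ2 : ρ ^ 2 ≤ 1) (hw0 : 0 < w) (hw : w ≤ 1 / 2) (hσ0 : 0 ≤ σ)
    (hσ : σ ≤ s * (1 + ρ ^ 2)) (hm : w ≤ 4 * ρ * m)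
    (hsq : D ^ 2 * (128 * ρ * m + 64 * ρ ^ 2) ≤ 1 / 16) (hAB : inner ℝ u (B - A) = 2 * s)
    (n1 : ‖P - A‖ ≤ σ * (1 + w + ρ ^ 2)) (n2 : ‖B - P‖ ≤ σ * (1 - w + ρ ^ 2))
    (n3 : ‖Q - A‖ ≤ σ * (1 + ρ ^ 2)) (n4 : ‖P - Q‖ ≤ σ * w) :
    ‖P - Q - (s * w) • u‖ ≤ ρ / 4 := by
  have hs0 : 0 ≤ s := by linarith
  have hr : 0 ≤ ρ ^ 2 := sq_nonneg ρ
  have bd : ∀ L : ℝ, 0 ≤ L → L ≤ 3 → σ * L ≤ s * L + 3 * s * ρ ^ 2 := fun L hL hL3 => by
    calc σ * L ≤ s * (1 + ρ ^ 2) * L := mul_le_mul_of_nonneg_right hσ hL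
      _ = s * L + s * ρ ^ 2 * L := by ring
      _ ≤ _ := by linarith [mul_le_mul_of_nonneg_left hL3 (mul_nonneg hs0 hr)]
  have i2 := inner_le_of_norm_le hu (n2.trans (bd _ (by linarith) (by linarith)))
  have i3 := inner_le_of_norm_le hu (n3.trans (bd _ (by linarith) (by linarith)))
  have hr' : 0 ≤ s * ρ ^ 2 := mul_nonneg hs0 hr
  have hlow : s * w - 8 * (s * ρ ^ 2) ≤ inner ℝ u (P - Q) := by
    rw [show P - Q = (B - A) - (B - P) - (Q - A) by abel, inner_sub_right, inner_sub_right, hAB]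
    linarith
  have hup : ‖P - Q‖ ≤ s * w + 8 * (s * ρ ^ 2) := by
    linarith [n4.trans (bd w hw0.le (by linarith))]
  have hsqz := squeeze hu (mul_nonneg hs0 hw0.le) hup hlow
  have hsmall : ‖P - Q - (s * w) • u‖ ^ 2 ≤ (ρ / 4) ^ 2 := by
    refine hsqz.trans ?_
    calc 4 * (s * w) * (8 * (s * ρ ^ 2)) + (8 * (s * ρ ^ 2)) ^ 2
        = s ^ 2 * (ρ ^ 2 * (32 * w + 64 * ρ ^ 2)) := by ring
      _ ≤ D ^ 2 * (ρ ^ 2 * (128 * ρ * m + 64 * ρ ^ 2)) := by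
          refine mul_le_mul (pow_le_pow_left₀ hs0 hsD 2) ?_ (by positivity) (sq_nonneg D)
          exact mul_le_mul_of_nonneg_left (by linarith) hr
      _ = ρ ^ 2 * (D ^ 2 * (128 * ρ * m + 64 * ρ ^ 2)) := by ring
      _ ≤ ρ ^ 2 * (1 / 16) := mul_le_mul_of_nonneg_left hsq hr
      _ = _ := by ring
  exact (abs_le_of_sq_le_sq' hsmall (by linarith)).2

/-- The quantitative conditions on the parameters. -/
structure Small (M : ℕ) (ρ κ δ D : ℝ) : Prop where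
  hD : 1 ≤ D
  hδ : δ = ρ ^ 2 / 2
  hκ : 2 * D * κ = ρ ^ 2 / 2
  hρ : ρ ≤ 1
  hsq : D ^ 2 * (128 * ρ * (M + 1) + 64 * ρ ^ 2) ≤ 1 / 16

lemma stack_legs (h : Params (M := M) ρ κ K) (i : Fin M) :
    ‖P ρ i - -bv 0‖ ≤ 1 + pos ρ i + ρ ^ 2 ∧ ‖bv 0 - P ρ i‖ ≤ 1 - pos ρ i + ρ ^ 2 ∧
      ‖Q ρ i - -bv 0‖ ≤ 1 + ρ ^ 2 ∧ ‖P ρ i - Q ρ i‖ ≤ pos ρ i := by
  have hw0 : 0 < pos ρ i := pos_pos h.hρ i
  have hw2 : |pos ρ i| ≤ 1 / 2 := by rw [abs_of_pos hw0]; exact (h.hpos i).le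
  have hn : (i : ℕ) + 1 ≠ 0 := Nat.succ_ne_zero _
  refine ⟨?_, ?_, ?_, ?_⟩
  · have := norm_leg (ρ := ρ) hn (-1) (Or.inr rfl) hw2
    simpa [P] using this
  · have := norm_leg (ρ := ρ) hn 1 (Or.inl rfl) hw2
    rw [norm_sub_rev]
    simpa [P] using this
  · have := norm_leg (w := 0) (ρ := ρ) hn (-1) (Or.inr rfl) (by norm_num)
    simpa [Q] using this
  · rw [show P ρ i - Q ρ i = pos ρ i • bv 0 by simp [P, Q], norm_smul, norm_bv, mul_one,
      Real.norm_of_nonneg hw0.le]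

lemma pos_le_width (hρ : 0 < ρ) (i : Fin M) : pos ρ i ≤ 4 * ρ * (M + 1) := by
  unfold pos
  refine mul_le_mul_of_nonneg_left ?_ (by linarith)
  have : ((i : ℕ) : ℝ) ≤ M := by exact_mod_cast i.2.le
  linarith

lemma norm_Q_sub (hρ : 0 < ρ) {i j : ℕ} (hij : i ≠ j) :
    7 / 5 * ρ ≤ ‖Q ρ i - Q ρ j‖ ∧ ‖Q ρ i - Q ρ j‖ ≤ 3 / 2 * ρ := by
  have hq : ‖Q ρ i - Q ρ j‖ ^ 2 = 2 * ρ ^ 2 := by
    rw [Q, Q, norm_sub_sq_real, norm_smul, norm_smul, norm_bv, norm_bv, inner_smul_left,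
      inner_smul_right, inner_bv, bv_apply, if_neg (by omega)]
    simp [sq_abs]; ring
  constructor <;> nlinarith [norm_nonneg (Q ρ i - Q ρ j)]

lemma pair_of_close {k : ℕ} {x y a b : Euc k} {ρ D q : ℝ} (hD : 1 ≤ D) (hρ : 0 < ρ)
    (hx : ‖x - a‖ ≤ ρ / 4) (hy : ‖y - b‖ ≤ ρ / 4) (hq : 3 / 2 * ρ ≤ q ∨ 7 / 5 * ρ ≤ q)
    (hq' : q ≤ 3 / 2 * ρ) (hlo : q ≤ ‖a - b‖) (hhi : ‖a - b‖ ≤ D * q) :
    ρ / 2 ≤ ‖x - y‖ ∧ ‖x - y‖ ≤ 3 * D * ρ / 2 + ρ := by
  have t1 : ‖x - y‖ ≤ ‖x - a‖ + ‖a - b‖ + ‖b - y‖ :=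
    (norm_sub_le_norm_sub_add_norm_sub x b y).trans
      (add_le_add (norm_sub_le_norm_sub_add_norm_sub x a b) le_rfl)
  have t2 : ‖a - b‖ ≤ ‖a - x‖ + ‖x - y‖ + ‖y - b‖ :=
    (norm_sub_le_norm_sub_add_norm_sub a y b).trans
      (add_le_add (norm_sub_le_norm_sub_add_norm_sub a x y) le_rfl)
  rw [norm_sub_rev b y] at t1
  rw [norm_sub_rev a x] at t2
  have := mul_le_mul_of_nonneg_left hq' (by linarith : (0:ℝ) ≤ D)
  constructor <;> rcases hq with hq | hq <;> linarith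

lemma no_short (h : Params (M := M) ρ κ K) {k : ℕ} {D δ : ℝ} (hs : Small M ρ κ δ D)
    (hM : ∀ ψ : Fin M → Euc k, (∀ i j, ‖ψ i - ψ j‖ ≤ 6 * D) → ∃ i j, i < j ∧ ‖ψ i - ψ j‖ < 1)
    (F : TreeCon.Pair M → E2 → Euc k) (V : Fin M → Euc k) {A B : Euc k} {s : ℝ}
    (hs0 : s = ‖B - A‖ / 2) (hs1 : 1 ≤ s) (hsD : s ≤ D)
    (hA : ∀ p, F p (-bv 0) = A) (hB : ∀ p, F p (bv 0) = B)
    (hV : ∀ p (i : Fin M), F p (P ρ i) = V i)
    (hseg : ∀ p g', ‖F p (segR ρ p g') - F p (segL ρ p g')‖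
        ≤ (s * (1 + δ) + 2 * D * κ) * ‖segR ρ p g' - segL ρ p g'‖)
    (hQ : ∀ p a b, ‖segR ρ p (a, 2) - segR ρ p (b, 2)‖
          ≤ ‖F p (segR ρ p (a, 2)) - F p (segR ρ p (b, 2))‖ ∧
        ‖F p (segR ρ p (a, 2)) - F p (segR ρ p (b, 2))‖
          ≤ D * ‖segR ρ p (a, 2) - segR ρ p (b, 2)‖) : False := by
  have hρ := h.hρ
  have hρ2 : ρ ^ 2 ≤ 1 := by nlinarith [hs.hρ]
  set σ := s * (1 + δ) + 2 * D * κ with hσdef
  have hσle : σ ≤ s * (1 + ρ ^ 2) := by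
    rw [hσdef, hs.hκ, hs.hδ]
    nlinarith [sq_nonneg ρ]
  have hσ0 : 0 ≤ σ := by
    rw [hσdef, hs.hκ, hs.hδ]
    positivity
  set u := (2 * s)⁻¹ • (B - A) with hu
  have hn : ‖B - A‖ = 2 * s := by rw [hs0]; ring
  have hu1 : ‖u‖ = 1 := by
    rw [hu, norm_smul, norm_inv, Real.norm_of_nonneg (by linarith), hn]
    exact inv_mul_cancel₀ (by linarith)
  have huAB : inner ℝ u (B - A) = 2 * s := by
    rw [hu, real_inner_smul_left, real_inner_self_eq_norm_sq, hn]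
    field_simp
  let ψ : Fin M → Euc k := fun i => V i - (s * pos ρ i) • u
  have hclose : ∀ (p : TreeCon.Pair M) (a : Fin 2) (i : Fin M), idx p a = i →
      segR ρ p (a, 2) = Q ρ i ∧ ‖ψ i - F p (Q ρ i)‖ ≤ ρ / 4 := by
    intro p a i hi
    have e0 : segL ρ p (a, 0) = -bv 0 ∧ segR ρ p (a, 0) = P ρ i := by simp [segL, segR, st, en, hi]
    have e1 : segL ρ p (a, 1) = P ρ i ∧ segR ρ p (a, 1) = bv 0 := by simp [segL, segR, st, en, hi]
    have e2 : segL ρ p (a, 2) = -bv 0 ∧ segR ρ p (a, 2) = Q ρ i := by simp [segL, segR, st, en, hi]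
    have e3 : segL ρ p (a, 3) = Q ρ i ∧ segR ρ p (a, 3) = P ρ i := by simp [segL, segR, st, en, hi]
    obtain ⟨l1, l2, l3, l4⟩ := stack_legs h i
    have n1 := hseg p (a, 0)
    have n2 := hseg p (a, 1)
    have n3 := hseg p (a, 2)
    have n4 := hseg p (a, 3)
    rw [e0.1, e0.2, hV, hA] at n1
    rw [e1.1, e1.2, hV, hB] at n2
    rw [e2.1, e2.2, hA] at n3
    rw [e3.1, e3.2, hV] at n4
    refine ⟨e2.2, ?_⟩
    rw [show ψ i - F p (Q ρ i) = V i - F p (Q ρ i) - (s * pos ρ i) • u by simp only [ψ]; abel]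
    exact stack_close hu1 hs1 hsD hρ hρ2 (pos_pos hρ i) (h.hpos i).le hσ0 hσle
      (m := M + 1) (pos_le_width hρ i) hs.hsq huAB
      (n1.trans (mul_le_mul_of_nonneg_left l1 hσ0)) (n2.trans (mul_le_mul_of_nonneg_left l2 hσ0))
      (n3.trans (mul_le_mul_of_nonneg_left l3 hσ0)) (n4.trans (mul_le_mul_of_nonneg_left l4 hσ0))
  have hpair : ∀ i j : Fin M, i < j →
      ρ / 2 ≤ ‖ψ i - ψ j‖ ∧ ‖ψ i - ψ j‖ ≤ 3 * D * ρ / 2 + ρ := by
    intro i j hij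
    obtain ⟨ei, hi⟩ := hclose ⟨(i, j), hij⟩ 0 i rfl
    obtain ⟨ej, hj⟩ := hclose ⟨(i, j), hij⟩ 1 j rfl
    obtain ⟨hlo, hhi⟩ := hQ ⟨(i, j), hij⟩ 0 1
    rw [ei, ej] at hlo hhi
    obtain ⟨q1, q2⟩ := norm_Q_sub hρ (show (i : ℕ) ≠ j from Nat.ne_of_lt hij)
    exact pair_of_close hs.hD hρ hi hj (Or.inr q1) q2 hlo hhi
  have hD := hs.hD
  have hb : ∀ i j, ‖(2 / ρ) • ψ i - (2 / ρ) • ψ j‖ = 2 / ρ * ‖ψ i - ψ j‖ := fun i j => by
    rw [← smul_sub, norm_smul, Real.norm_of_nonneg (by positivity)]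
  obtain ⟨i, j, hij, hlt'⟩ := hM (fun i => (2 / ρ) • ψ i) fun i j => by
    rw [hb, div_mul_eq_mul_div, div_le_iff₀ hρ]
    have h6 := mul_le_mul_of_nonneg_right hD hρ.le
    rcases lt_trichotomy i j with h1 | rfl | h1
    · linarith [(hpair i j h1).2]
    · simp; positivity
    · rw [norm_sub_rev]; linarith [(hpair j i h1).2]
  rw [hb, div_mul_eq_mul_div, div_lt_one hρ] at hlt'
  linarith [(hpair i j hij).1]

lemma not_emb_tree (h : Params (M := M) ρ κ K) {k : ℕ} {D δ : ℝ} (hs : Small M ρ κ δ D)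
    (hM : ∀ ψ : Fin M → Euc k, (∀ i j, ‖ψ i - ψ j‖ ≤ 6 * D) → ∃ i j, i < j ∧ ‖ψ i - ψ j‖ < 1) :
    ∀ (r : ℕ) (g : Sim) (G : Set (E2 × Euc k)) (A B : Euc k) (s : ℝ),
      BiLipOn D G → (g.app (-bv 0), A) ∈ G → (g.app (bv 0), B) ∈ G → 1 ≤ s →
      s * (2 * g.σ) ≤ ‖B - A‖ → D < s * (1 + δ) ^ r →
      ¬ Emb k D (tree ρ κ K r g) G := by
  classical
  have hbb : ‖bv 0 - -bv 0‖ = 2 := by
    rw [sub_neg_eq_add, ← two_smul ℝ, norm_smul, norm_bv]; norm_num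
  intro r
  induction r with
  | zero =>
    intro g G A B s hG ha hb _ hAB hlt _
    have h1 := (hG _ hb _ ha).2
    simp only [← dist_eq_norm, Sim.dist_app] at h1
    rw [dist_eq_norm (bv 0), hbb, dist_eq_norm] at h1
    simp only [pow_zero, mul_one] at hlt
    nlinarith [g.pos]
  | succ r ih =>
    intro g G A B s hG ha hb hs1 hAB hlt hemb
    simp only [tree, PTree.ofFinset, Emb] at hemb
    obtain ⟨v, hv, hch⟩ := hemb
    set G₁ : Set (E2 × Euc k) := G ∪ range fun i =>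
      (((Finset.equivFin ((stackFin ρ M).image g.app)).symm i : E2), v i) with hG₁def
    have hch' : ∀ p : Pair M, ∃ G₂ : Set (E2 × Euc k), G₁ ⊆ G₂ ∧ BiLipOn D G₂ ∧
        (∀ y ∈ newPts ρ κ K p, ∃ z, (g.app y, z) ∈ G₂) ∧
        ∀ x, Emb k D (tree ρ κ K r (g.comp (piece ρ κ K p x))) G₂ := by
      intro p
      have := hch (Fintype.equivFin (Pair M) p)
      rw [Equiv.symm_apply_apply] at this
      obtain ⟨w, hw, hw'⟩ := this
      refine ⟨_, subset_union_left, hw, fun y hy => ?_, fun x => ?_⟩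
      · have hy' : g.app y ∈ (newPts ρ κ K p).image g.app := Finset.mem_image_of_mem _ hy
        exact ⟨w (Finset.equivFin _ ⟨_, hy'⟩),
          Or.inr ⟨Finset.equivFin _ ⟨_, hy'⟩, by simp⟩⟩
      · have := hw' (Fintype.equivFin (Piece K p) x)
        rwa [Equiv.symm_apply_apply] at this
    choose G₂ hsub hbi hpts hembp using hch'
    have hσ := g.pos
    -- values in normalised coordinates
    let F : Pair M → E2 → Euc k := fun p y =>
      if hy : ∃ z, (g.app y, z) ∈ G₂ p then g.σ⁻¹ • hy.choose else 0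
    let dom : Pair M → E2 → Prop := fun p y => ∃ z, (g.app y, z) ∈ G₂ p
    have hF : ∀ p y z, dom p y → dom p z →
        ‖y - z‖ ≤ ‖F p y - F p z‖ ∧ ‖F p y - F p z‖ ≤ D * ‖y - z‖ := by
      intro p y z hy hz
      simp only [F, dom] at hy hz ⊢
      rw [dif_pos hy, dif_pos hz, ← smul_sub, norm_smul, norm_inv,
        Real.norm_of_nonneg hσ.le]
      obtain ⟨h1, h2⟩ := hbi p _ hy.choose_spec _ hz.choose_spec
      simp only [← dist_eq_norm, Sim.dist_app] at h1 h2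
      simp only [← dist_eq_norm]
      constructor
      · rw [le_inv_mul_iff₀ hσ]; exact h1
      · rw [inv_mul_le_iff₀ hσ]; linarith
    have hval : ∀ p y z, (g.app y, z) ∈ G₂ p → F p y = g.σ⁻¹ • z := by
      intro p y z hz
      have hy : ∃ z, (g.app y, z) ∈ G₂ p := ⟨z, hz⟩
      simp only [F, dif_pos hy]
      congr 1
      have := (hbi p _ hy.choose_spec _ hz).2
      simp only [sub_self, norm_zero, mul_zero] at this
      exact sub_eq_zero.1 (norm_le_zero_iff.1 this)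
    have hstackv : ∀ i : Fin M, ∃ z, (g.app (P ρ i), z) ∈ G₁ := fun i => by
      have hy : g.app (P ρ i) ∈ (stackFin ρ M).image g.app :=
        Finset.mem_image_of_mem _ (by simp [stackFin])
      exact ⟨v (Finset.equivFin _ ⟨_, hy⟩), Or.inr ⟨Finset.equivFin _ ⟨_, hy⟩, by simp⟩⟩
    choose V hV using hstackv
    have hdoma : ∀ p, dom p (-bv 0) := fun p => ⟨A, hsub p (Or.inl ha)⟩
    have hdomb : ∀ p, dom p (bv 0) := fun p => ⟨B, hsub p (Or.inl hb)⟩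
    have hdomP : ∀ p (i : Fin M), dom p (P ρ i) := fun p i => ⟨V i, hsub p (hV i)⟩
    have hdomS : ∀ p, ∀ g' : Fin 2 × Fin 4, ∀ y,
        (y = segL ρ p g' ∨ y = segR ρ p g' ∨
          ∃ l ≤ K p g', y = mark κ (segL ρ p g') (segR ρ p g') (K p g') l) → dom p y := by
      intro p g' y hy
      by_cases hyA : y ∈ ({-bv 0, bv 0} : Finset E2) ∪ stackFin ρ M
      · simp only [Finset.mem_union, Finset.mem_insert, Finset.mem_singleton, stackFin,
          Finset.mem_image, Finset.mem_univ, true_and] at hyA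
        rcases hyA with (rfl | rfl) | ⟨i, rfl⟩
        · exact hdoma p
        · exact hdomb p
        · exact hdomP p i
      · refine hpts p y (Finset.mem_sdiff.2 ⟨Finset.mem_biUnion.2 ⟨g', Finset.mem_univ _, ?_⟩, hyA⟩)
        rcases hy with rfl | rfl | ⟨l, hl, rfl⟩
        · simp
        · simp
        · exact Finset.mem_union_right _
            (Finset.mem_image.2 ⟨l, Finset.mem_range.2 (Nat.lt_succ_of_le hl), rfl⟩)
    set A' := g.σ⁻¹ • A with hA'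
    set B' := g.σ⁻¹ • B with hB'
    set s₀ := ‖B' - A'‖ / 2 with hs₀
    have hs₀' : s ≤ s₀ := by
      rw [hs₀, hA', hB', ← smul_sub, norm_smul, norm_inv, Real.norm_of_nonneg hσ.le,
        le_div_iff₀ two_pos, le_inv_mul_iff₀ hσ]
      linarith
    have hs₀D : s₀ ≤ D := by
      have h1 := (hG _ hb _ ha).2
      simp only [← dist_eq_norm, Sim.dist_app] at h1
      rw [dist_eq_norm (bv 0), hbb, dist_eq_norm] at h1
      rw [hs₀, hA', hB', ← smul_sub, norm_smul, norm_inv, Real.norm_of_nonneg hσ.le,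
        div_le_iff₀ two_pos, inv_mul_le_iff₀ hσ]
      linarith
    have hδ0 : 0 < δ := by rw [hs.hδ]; have := h.hρ; positivity
    -- either a piece gains, or all legs are short
    by_cases hgain : ∃ p x, s₀ * (1 + δ) * ‖pieceR ρ κ K p x - pieceL ρ κ K p x‖
        < ‖F p (pieceR ρ κ K p x) - F p (pieceL ρ κ K p x)‖
    · obtain ⟨p, x, hx⟩ := hgain
      obtain ⟨zl, hzl⟩ : dom p (pieceL ρ κ K p x) :=
        hdomS p x.1 _ (Or.inr (Or.inr ⟨x.2, x.2.2.le, rfl⟩))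
      obtain ⟨zr, hzr⟩ : dom p (pieceR ρ κ K p x) :=
        hdomS p x.1 _ (Or.inr (Or.inr ⟨x.2 + 1, x.2.2, rfl⟩))
      rw [hval p _ _ hzl, hval p _ _ hzr, ← smul_sub, norm_smul, norm_inv,
        Real.norm_of_nonneg hσ.le, lt_inv_mul_iff₀ hσ] at hx
      refine ih (g.comp (piece ρ κ K p x)) (G₂ p) zl zr (s * (1 + δ)) (hbi p) ?_ ?_ ?_ ?_ ?_
        (hembp p x)
      · rw [Sim.comp_app, piece_eq h, Sim.place_left]; exact hzl
      · rw [Sim.comp_app, piece_eq h, Sim.place_right]; exact hzr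
      · nlinarith
      · refine le_trans ?_ hx.le
        have e : (g.comp (piece ρ κ K p x)).σ
            = g.σ * (‖pieceR ρ κ K p x - pieceL ρ κ K p x‖ / 2) := by
          rw [piece_eq h]; rfl
        rw [e]
        have : s * (1 + δ) ≤ s₀ * (1 + δ) := mul_le_mul_of_nonneg_right hs₀' (by linarith)
        nlinarith [mul_le_mul_of_nonneg_right this
          (mul_nonneg hσ.le (norm_nonneg (pieceR ρ κ K p x - pieceL ρ κ K p x)))]
      · rwa [pow_succ', ← mul_assoc] at hlt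
    push Not at hgain
    have hs01 : 1 ≤ s₀ := hs1.trans hs₀'
    have hseg : ∀ p g', ‖F p (segR ρ p g') - F p (segL ρ p g')‖
        ≤ (s₀ * (1 + δ) + 2 * D * κ) * ‖segR ρ p g' - segL ρ p g'‖ := by
      intro p g'
      refine chain_bound (F p) h.hκ.le h.hκ' (by positivity) _ _ (h.hK p g') ?_ ?_
        (fun l hl => hgain p ⟨g', ⟨l, hl⟩⟩)
      · exact (hF p _ _ (hdomS p g' _ (Or.inr (Or.inr ⟨0, Nat.zero_le _, rfl⟩)))
          (hdomS p g' _ (Or.inl rfl))).2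
      · exact (hF p _ _ (hdomS p g' _ (Or.inr (Or.inr ⟨K p g', le_rfl, rfl⟩)))
          (hdomS p g' _ (Or.inr (Or.inl rfl)))).2
    exact no_short h hs hM F (fun i => g.σ⁻¹ • V i) hs₀ hs01 hs₀D
      (fun p => by rw [hval p _ _ (hsub p (Or.inl ha))])
      (fun p => by rw [hval p _ _ (hsub p (Or.inl hb))])
      (fun p i => hval p _ _ (hsub p (hV i)))
      hseg (fun p a b => hF p _ _
        (hdomS p (a, 2) _ (Or.inr (Or.inl rfl))) (hdomS p (b, 2) _ (Or.inr (Or.inl rfl))))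

/-- A finite tree with doubling branches and no embedding with distortion `D` in dimension `k`. -/
theorem exists_tree (k : ℕ) {D : ℝ} (hD : 1 ≤ D) :
    ∃ T, TreeGood TreeCon.N₁ T ∅ ∧ ¬ Emb k D T ∅ := by
  classical
  obtain ⟨M, hM2, hM⟩ := exists_packing k (6 * D)
  set ρ : ℝ := 1 / (5000 * D ^ 2 * (M + 1)) with hρdef
  have hD0 : 0 < D := by linarith
  have hρ : 0 < ρ := by positivity
  have hM1 : (1 : ℝ) ≤ (M : ℝ) + 1 := by
    have := Nat.cast_nonneg (α := ℝ) M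
    linarith
  have hD2 : 1 ≤ D ^ 2 := one_le_pow₀ hD
  have hprod : ρ * (D ^ 2 * (M + 1)) = 1 / 5000 := by
    rw [hρdef]; field_simp
  have hρM : ρ * (M + 1) ≤ 1 / 5000 := by
    refine le_trans ?_ hprod.le
    exact mul_le_mul_of_nonneg_left (le_mul_of_one_le_left (by linarith) hD2) hρ.le
  have hρ1 : ρ ≤ 1 / 5000 := le_trans (le_mul_of_one_le_right hρ.le hM1) hρM
  set κ : ℝ := ρ ^ 2 / (4 * D) with hκdef
  have hκ0 : 0 < κ := by positivity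
  have hκ2 : κ < 1 / 2 := by
    rw [hκdef, div_lt_iff₀ (by positivity)]
    nlinarith
  have hpos : ∀ i : Fin M, pos ρ i < 1 / 2 := fun i => by
    unfold pos
    have : ((i : ℕ) : ℝ) + 1 ≤ (M : ℝ) + 1 := by
      have : ((i : ℕ) : ℝ) ≤ M := by exact_mod_cast i.2.le
      linarith
    nlinarith
  obtain ⟨K, hK⟩ := exists_params hρ hpos hκ0 hκ2
  have hs : Small M ρ κ (ρ ^ 2 / 2) D := by
    refine ⟨hD, rfl, ?_, by linarith, ?_⟩
    · rw [hκdef]; field_simp; ring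
    · have h1 : D ^ 2 * (128 * ρ * (M + 1)) = 128 / 5000 := by linear_combination 128 * hprod
      have h2 : D ^ 2 * ρ ≤ 1 / 5000 := by
        refine le_trans ?_ hprod.le
        rw [mul_comm]
        exact mul_le_mul_of_nonneg_left (le_mul_of_one_le_right (by positivity) hM1) hρ.le
      nlinarith [mul_le_mul h2 hρ1 hρ.le (by norm_num)]
  obtain ⟨n, hn⟩ := pow_unbounded_of_one_lt D (show 1 < 1 + ρ ^ 2 / 2 by
    have : 0 < ρ ^ 2 := by positivity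
    linarith)
  let T₀ := PTree.ofFinset {-bv 0, bv 0} 1 fun _ => TreeCon.tree ρ κ K n Sim.one
  have hone : ∀ S : Set E2, Sim.one.app '' S = S := fun S => by simp [Sim.one_app]
  have hax : ({-bv 0, bv 0} : Set E2) ⊆ axisSeg :=
    insert_subset (left_mem_segment _ _ _) (singleton_subset_iff.2 (right_mem_segment _ _ _))
  have hcov : ∀ T, IsPath ρ κ K n T → Cov N₁ (({-bv 0, bv 0} : Set E2) ∪ T.carrier) :=
    fun T hT => by
      obtain ⟨hWF, -, -, hb⟩ := path_props hK n T hT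
      exact (Nest.cov_carrier _ T hWF).mono
        (union_subset (hax.trans (hb.trans (Nest.base_subset_carrier T))) subset_rfl) le_rfl
  refine ⟨T₀, ⟨?_, fun i => ⟨by simp, ?_⟩, ?_, fun _ => ?_⟩, ?_⟩
  · exact Subtype.val_injective.comp (Finset.equivFin _).symm.injective
  · have := ((Finset.equivFin ({-bv 0, bv 0} : Finset E2)).symm i).2
    simp only [Finset.mem_insert, Finset.mem_singleton] at this
    rcases this with h | h <;> simp [h, norm_bv]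
  · rw [range_ofFinset, empty_union]
    refine (cov_segment (-bv 0) (bv 0)).mono ?_ ?_
    · simpa [axisSeg] using hax
    · unfold TreeCon.N₁
      have : 5 ≤ N₀ := by unfold N₀; omega
      calc (5 : ℕ) ≤ N₀ ^ 3 := this.trans (Nat.le_self_pow (by norm_num) _)
        _ ≤ _ := Nat.le_add_right _ _
  · rw [range_ofFinset, empty_union, Finset.coe_pair]
    refine tree_good hK n _ _ ?_ ?_ (fun T hT => by rw [hone]; exact hcov T hT) ?_ ?_
    · simp [Sim.one_app]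
    · simp [Sim.one_app]
    · rw [hone, hone]
      exact inter_subset_left.trans hax
    · rw [hone]
  · rintro ⟨v, hv, hch⟩
    let e := Finset.equivFin ({-bv 0, bv 0} : Finset E2)
    have ha : -bv 0 ∈ ({-bv 0, bv 0} : Finset E2) := by simp
    have hb : bv 0 ∈ ({-bv 0, bv 0} : Finset E2) := by simp
    refine not_emb_tree hK hs (fun ψ hψ => hM ψ hψ) n Sim.one _ (v (e ⟨_, ha⟩)) (v (e ⟨_, hb⟩)) 1
      hv (Or.inr ⟨e ⟨_, ha⟩, by simp [e, Sim.one_app]⟩)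
      (Or.inr ⟨e ⟨_, hb⟩, by simp [e, Sim.one_app]⟩) le_rfl ?_ ?_ (hch 0)
    · have h1 := (hv _ (Or.inr ⟨e ⟨_, hb⟩, rfl⟩) _ (Or.inr ⟨e ⟨_, ha⟩, rfl⟩)).1
      simp only [e, Equiv.symm_apply_apply] at h1
      rw [sub_neg_eq_add, ← two_smul ℝ, norm_smul, norm_bv] at h1
      simp [Sim.one] at h1 ⊢
      linarith
    · simpa using hn

end Vale.Agent.P208
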