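import Vale.Agent.P208.Build
import Vale.Agent.P208.TreeEmb

/-!
All the finite obstructions placed along one segment give a single doubling subset of Hilbert space.
-/

open Metric Set
open scoped Classical

namespace Vale.Agent.P208

/-- The centre of the `n`-th part. -/
noncomputable def partC (n : ℕ) : E2 := ((4 : ℝ)⁻¹ ^ n) • bv 0

/-- The similarity placing the `n`-th part. -/
noncomputable def partSim (n : ℕ) : Sim :=
  ⟨partC n, (4 : ℝ)⁻¹ ^ n / 100, by positivity, LinearIsometryEquiv.refl ℝ E2⟩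

lemma quarter_pow_le {n m : ℕ} (h : n ≤ m) : ((4 : ℝ)⁻¹) ^ m ≤ (4 : ℝ)⁻¹ ^ n :=
  pow_le_pow_of_le_one (by norm_num) (by norm_num) h

lemma partC_mem (n : ℕ) : partC n ∈ segment ℝ ((0 : ℝ) • bv 0) (bv 0) := by
  rw [segment_eq_image']
  refine ⟨(4 : ℝ)⁻¹ ^ n, ⟨by positivity, pow_le_one₀ (by norm_num) (by norm_num)⟩, ?_⟩
  simp [partC]

lemma cov_combine {N : ℕ} (S : ℕ → Set E2) (hS : ∀ n, S n ⊆ closedBall 0 1)
    (hc : ∀ n, Cov N (S n)) : Cov (5 ^ 3 + N) ({0} ∪ ⋃ n, (partSim n).app '' S n) := by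
  intro x R hR
  obtain ⟨t, ht, htc⟩ := (cov_segment ((0 : ℝ) • bv 0) (bv 0)).iterate 3 x
    (show (0 : ℝ) < 2 * R by linarith)
  have hin : ∀ n, ∀ y ∈ (partSim n).app '' S n, dist y (partC n) ≤ (4 : ℝ)⁻¹ ^ n / 100 := by
    rintro n _ ⟨z, hz, rfl⟩
    have h0 : (partSim n).app 0 = partC n := by simp [partSim, Sim.app]
    rw [← h0, Sim.dist_app]
    exact mul_le_of_le_one_right (by simp only [partSim]; positivity) (hS n hz)
  have hsmall : ∀ y ∈ closedBall x R, ∀ q ∈ segment ℝ ((0 : ℝ) • bv 0) (bv 0),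
      dist y q ≤ R / 16 → ∃ c ∈ t, y ∈ closedBall c (R / 2) := by
    intro y hy q hq hyq
    rw [mem_closedBall] at hy
    obtain ⟨c, hct, hqc⟩ := mem_iUnion₂.1 (htc ⟨hq, by
      rw [mem_closedBall]; linarith [dist_triangle q y x, dist_comm q y]⟩)
    refine ⟨c, hct, ?_⟩
    rw [mem_closedBall] at hqc ⊢
    norm_num at hqc
    linarith [dist_triangle y q c]
  by_cases hbig : ∃ n, R / 16 < (4 : ℝ)⁻¹ ^ n / 100 ∧
      ((partSim n).app '' S n ∩ closedBall x R).Nonempty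
  · obtain ⟨n, hn, y₀, hy₀, hy₀x⟩ := hbig
    obtain ⟨u, hu, huc⟩ := ((hc n).image (partSim n)) x R hR
    refine ⟨t ∪ u, (Finset.card_union_le _ _).trans (add_le_add ht hu), fun y ⟨hy, hyx⟩ => ?_⟩
    simp only [mem_iUnion₂]
    rcases hy with hy | hy
    · obtain ⟨c, hc', hyc⟩ := hsmall y hyx 0 (by simpa using left_mem_segment ℝ (0 : E2) (bv 0))
        (by rw [hy, dist_self]; linarith)
      exact ⟨c, Finset.mem_union_left _ hc', hyc⟩
    obtain ⟨m, hm⟩ := mem_iUnion.1 hy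
    rcases le_or_gt ((4 : ℝ)⁻¹ ^ m / 100) (R / 16) with hms | hmb
    · obtain ⟨c, hc', hyc⟩ := hsmall y hyx _ (partC_mem m) ((hin m y hm).trans hms)
      exact ⟨c, Finset.mem_union_left _ hc', hyc⟩
    · obtain rfl : m = n := by
        by_contra hne
        have hd : dist (partC m) (partC n) ≤ 2 * R + (4 : ℝ)⁻¹ ^ m / 100 + (4 : ℝ)⁻¹ ^ n / 100 := by
          rw [mem_closedBall] at hyx hy₀x
          linarith [dist_triangle4 (partC m) y y₀ (partC n), dist_comm (partC m) y,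
            dist_triangle_right y y₀ x, hin m y hm, hin n y₀ hy₀]
        have he : dist (partC m) (partC n) = |(4 : ℝ)⁻¹ ^ m - (4 : ℝ)⁻¹ ^ n| := by
          rw [partC, partC, dist_eq_norm, ← sub_smul, norm_smul, norm_bv, mul_one,
            Real.norm_eq_abs]
        rw [he] at hd
        have key : ∀ {i j : ℕ}, i < j → (4 : ℝ)⁻¹ ^ j ≤ (4 : ℝ)⁻¹ ^ i / 4 := fun {i j} hij => by
          refine (quarter_pow_le (show i + 1 ≤ j from hij)).trans_eq ?_
          rw [pow_succ]; ring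
        have hp : ∀ i : ℕ, 0 < (4 : ℝ)⁻¹ ^ i := fun i => by positivity
        rcases lt_or_gt_of_ne hne with h | h
        · have := key h
          rw [abs_of_nonneg (by linarith [hp m])] at hd
          linarith [hp m, hp n]
        · have := key h
          rw [abs_of_nonpos (by linarith [hp n])] at hd
          linarith [hp m, hp n]
      obtain ⟨c, hc', hyc⟩ := mem_iUnion₂.1 (huc ⟨hm, hyx⟩)
      exact ⟨c, Finset.mem_union_right _ hc', hyc⟩
  · push Not at hbig
    refine ⟨t, ht.trans (Nat.le_add_right _ _), fun y ⟨hy, hyx⟩ => ?_⟩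
    simp only [mem_iUnion₂]
    rcases hy with hy | hy
    · exact (hsmall y hyx 0 (by simpa using left_mem_segment ℝ (0 : E2) (bv 0))
        (by rw [hy, dist_self]; linarith)).imp fun c h => ⟨h.1, h.2⟩
    obtain ⟨m, hm⟩ := mem_iUnion.1 hy
    refine (hsmall y hyx _ (partC_mem m) ((hin m y hm).trans ?_)).imp fun c h => ⟨h.1, h.2⟩
    by_contra hc'
    push Not at hc'
    have h := hbig m hc'
    exact (h ▸ (⟨hm, hyx⟩ : y ∈ (partSim m).app '' S m ∩ closedBall x R) : y ∈ (∅ : Set E2))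

/-- A doubling subset of Hilbert space with no bi-Lipschitz embedding in finite dimension. -/
theorem exists_counterexample :
    ∃ X : Set E2,
      (∃ N : ℕ, ∀ x ∈ X, ∀ r : ℝ, 0 < r →
        ∃ t : Finset E2, ↑t ⊆ X ∧ t.card ≤ N ∧ X ∩ closedBall x r ⊆ ⋃ c ∈ t, ball c (r / 2)) ∧
      ∀ (k : ℕ) (f : X → Euc k) (a D : ℝ), 0 < a →
        ¬ ∀ x y : X, a * dist x y ≤ dist (f x) (f y) ∧ dist (f x) (f y) ≤ D * (a * dist x y) := by
  have hpart : ∀ n : ℕ, ∃ S : Set E2, S ⊆ closedBall 0 1 ∧ Cov (N₃ TreeCon.N₁) S ∧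
      ∀ f : E2 → Euc n.unpair.1, ¬ BiOn ((n.unpair.2 : ℝ) + 1) f S := by
    intro n
    have hD : (1 : ℝ) ≤ (n.unpair.2 : ℝ) + 1 := by
      linarith [(Nat.cast_nonneg n.unpair.2 : (0 : ℝ) ≤ _)]
    obtain ⟨T, hT, hT'⟩ := exists_tree n.unpair.1
      (show (1 : ℝ) ≤ 4 * ((n.unpair.2 : ℝ) + 1) by linarith)
    exact tree_to_set hD hT hT'
  choose S hS hcov hnot using hpart
  set X : Set E2 := {0} ∪ ⋃ n, (partSim n).app '' S n with hX
  refine ⟨X, ⟨(5 ^ 3 + N₃ TreeCon.N₁) ^ 3, fun x _ r hr => ?_⟩, fun k f a D ha hf => ?_⟩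
  · obtain ⟨t, ht, htc⟩ := (cov_combine S hS hcov).iterate 3 x hr
    let T := t.filter fun c => ((X ∩ closedBall c (r / 2 ^ 3))).Nonempty
    let pick : E2 → E2 := fun c =>
      if h : (X ∩ closedBall c (r / 2 ^ 3)).Nonempty then h.some else 0
    refine ⟨T.image pick, ?_, ?_, ?_⟩
    · intro p hp
      simp only [Finset.coe_image, mem_image] at hp
      obtain ⟨c, hc, rfl⟩ := hp
      have h := (Finset.mem_filter.1 hc).2
      simp only [pick, dif_pos h]
      exact h.some_mem.1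
    · exact Finset.card_image_le.trans ((Finset.card_filter_le _ _).trans ht)
    · rintro y ⟨hy, hyx⟩
      obtain ⟨c, hc, hyc⟩ := mem_iUnion₂.1 (htc ⟨hy, hyx⟩)
      have h : (X ∩ closedBall c (r / 2 ^ 3)).Nonempty := ⟨y, hy, hyc⟩
      refine mem_iUnion₂.2 ⟨pick c,
        Finset.mem_image_of_mem _ (Finset.mem_filter.2 ⟨hc, h⟩), ?_⟩
      simp only [pick, dif_pos h]
      have h2 := mem_closedBall.1 h.some_mem.2
      rw [mem_closedBall] at hyc
      rw [mem_ball]
      norm_num at hyc h2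
      linarith [dist_triangle_right y h.some c]
  · obtain ⟨d, hd⟩ := exists_nat_gt D
    set n := Nat.pair k d with hn
    have h1 : n.unpair.1 = k := by rw [hn, Nat.unpair_pair]
    have h2 : n.unpair.2 = d := by rw [hn, Nat.unpair_pair]
    have hbad := hnot n
    rw [h1, h2] at hbad
    set g := partSim n with hg
    let f' : E2 → Euc k := fun z => if h : z ∈ X then f ⟨z, h⟩ else 0
    refine hbad (fun z => (a * g.σ)⁻¹ • f' (g.app z)) ?_
    intro z hz w hw
    have hzX : g.app z ∈ X := Or.inr (mem_iUnion.2 ⟨n, mem_image_of_mem _ hz⟩)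
    have hwX : g.app w ∈ X := Or.inr (mem_iUnion.2 ⟨n, mem_image_of_mem _ hw⟩)
    obtain ⟨l, u⟩ := hf ⟨_, hzX⟩ ⟨_, hwX⟩
    rw [Subtype.dist_eq, Sim.dist_app, dist_eq_norm z w, dist_eq_norm] at l u
    have hpos : 0 < a * g.σ := mul_pos ha g.pos
    simp only [f', dif_pos hzX, dif_pos hwX]
    rw [← smul_sub, norm_smul, norm_inv, Real.norm_of_nonneg hpos.le, le_inv_mul_iff₀ hpos,
      inv_mul_le_iff₀ hpos]
    constructor
    · linarith
    · have : D * (a * (g.σ * ‖z - w‖)) ≤ ((d : ℝ) + 1) * (a * (g.σ * ‖z - w‖)) :=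
        mul_le_mul_of_nonneg_right (by linarith)
          (mul_nonneg ha.le (mul_nonneg g.pos.le (norm_nonneg _)))
      linarith

end Vale.Agent.P208
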