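import Vale.Agent.P208.Frame

open Metric Set

namespace Vale.Agent.P208

lemma squeeze {k : ℕ} {u x : Euc k} {a E : ℝ} (hu : ‖u‖ = 1) (ha : 0 ≤ a)
    (hx : ‖x‖ ≤ a + E) (hux : a - E ≤ inner ℝ u x) : ‖x - a • u‖ ^ 2 ≤ 4 * a * E + E ^ 2 := by
  rw [norm_sub_sq_real, norm_smul, hu, Real.norm_of_nonneg ha, inner_smul_right,
    real_inner_comm]
  nlinarith [norm_nonneg x, mul_le_mul_of_nonneg_left hux ha]

lemma inner_le_of_norm_le {k : ℕ} {u x : Euc k} {c : ℝ} (hu : ‖u‖ = 1) (hx : ‖x‖ ≤ c) :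
    inner ℝ u x ≤ c :=
  (real_inner_le_norm u x).trans (by rw [hu, one_mul]; exact hx)

lemma mark_sub_mark (κ : ℝ) (p q : E2) (K l : ℕ) :
    mark κ p q K (l + 1) - mark κ p q K l = ((1 - 2 * κ) / K) • (q - p) := by
  simp only [mark, Nat.cast_add, Nat.cast_one]
  module

lemma mark_mem_core {κ : ℝ} (hκ' : κ < 1 / 2) (p q : E2) {K l : ℕ} (hK : 0 < K) (hl : l ≤ K) :
    mark κ p q K l ∈ core κ p q := by
  have h1 : (l : ℝ) / K ≤ 1 := (div_le_one (by exact_mod_cast hK)).2 (by exact_mod_cast hl)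
  have h2 : 0 ≤ (l : ℝ) / K := by positivity
  refine ⟨_, ?_, rfl⟩
  constructor <;> nlinarith

lemma core_subset_segment {κ : ℝ} (hκ : 0 ≤ κ) (p q : E2) : core κ p q ⊆ segment ℝ p q := by
  rw [segment_eq_image']
  exact image_mono (Icc_subset_Icc hκ (by linarith))

/-- If all pieces of a segment have slope at most `σ`, then the segment has slope at most
`σ + 2 D κ`. -/
lemma chain_bound {k : ℕ} (F : E2 → Euc k) {κ σ D : ℝ} (hκ : 0 ≤ κ) (hκ' : κ < 1 / 2) (hσ : 0 ≤ σ)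
    (p q : E2) {K : ℕ} (hK : 0 < K)
    (hD₀ : ‖F (mark κ p q K 0) - F p‖ ≤ D * ‖mark κ p q K 0 - p‖)
    (hD₁ : ‖F (mark κ p q K K) - F q‖ ≤ D * ‖mark κ p q K K - q‖)
    (hp : ∀ l < K, ‖F (mark κ p q K (l + 1)) - F (mark κ p q K l)‖
      ≤ σ * ‖mark κ p q K (l + 1) - mark κ p q K l‖) :
    ‖F q - F p‖ ≤ (σ + 2 * D * κ) * ‖q - p‖ := by
  have hK' : (0 : ℝ) < K := by exact_mod_cast hK
  have hsum : ‖F (mark κ p q K K) - F (mark κ p q K 0)‖ ≤ σ * ((1 - 2 * κ) * ‖q - p‖) := by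
    rw [← Finset.sum_range_sub (fun l => F (mark κ p q K l))]
    refine (norm_sum_le _ _).trans ?_
    calc _ ≤ ∑ _l ∈ Finset.range K, σ * ((1 - 2 * κ) / K * ‖q - p‖) :=
          Finset.sum_le_sum fun l hl => by
            refine (hp l (Finset.mem_range.1 hl)).trans_eq ?_
            rw [mark_sub_mark, norm_smul, Real.norm_of_nonneg (div_nonneg (by linarith) hK'.le)]
      _ = _ := by
          rw [Finset.sum_const, Finset.card_range, nsmul_eq_mul]
          field_simp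
  have h0 := hD₀
  have h1 := hD₁
  have e0 : mark κ p q K 0 - p = κ • (q - p) := by simp [mark]
  have e1 : mark κ p q K K - q = (-κ) • (q - p) := by
    simp only [mark, div_self hK'.ne', one_mul]
    module
  rw [e0, norm_smul, Real.norm_of_nonneg hκ] at h0
  rw [e1, norm_smul, norm_neg, Real.norm_of_nonneg hκ] at h1
  have h2 := norm_sub_le_norm_sub_add_norm_sub (F q) (F (mark κ p q K K)) (F p)
  have h3 := norm_sub_le_norm_sub_add_norm_sub (F (mark κ p q K K)) (F (mark κ p q K 0)) (F p)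
  rw [norm_sub_rev (F (mark κ p q K K)) (F q)] at h1
  nlinarith [mul_nonneg (mul_nonneg hσ hκ) (norm_nonneg (q - p))]

lemma cov_iUnion {ι : Type*} [Fintype ι] {N : ℕ} {S : ι → Set E2} (h : ∀ i, Cov N (S i)) :
    Cov (Fintype.card ι * N) (⋃ i, S i) := by
  classical
  intro x R hR
  choose t ht hc using fun i => h i x R hR
  refine ⟨Finset.univ.biUnion t, Finset.card_biUnion_le.trans ?_, fun p ⟨hp, hpx⟩ => ?_⟩
  · exact (Finset.sum_le_card_nsmul _ _ N fun i _ => ht i).trans (by simp)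
  · obtain ⟨i, hi⟩ := mem_iUnion.1 hp
    obtain ⟨c, hc', hpc⟩ := mem_iUnion₂.1 (hc i ⟨hi, hpx⟩)
    exact mem_iUnion₂.2 ⟨c, Finset.mem_biUnion.2 ⟨i, Finset.mem_univ _, hc'⟩, hpc⟩

/-- A node whose points are the elements of a finite set. -/
noncomputable def PTree.ofFinset (S : Finset E2) (m : ℕ) (ch : Fin m → PTree) : PTree :=
  .node S.card (fun i => (S.equivFin.symm i : E2)) m ch

lemma range_ofFinset (S : Finset E2) :
    range (fun i => (S.equivFin.symm i : E2)) = (S : Set E2) := by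
  ext x
  constructor
  · rintro ⟨i, rfl⟩
    exact (S.equivFin.symm i).2
  · exact fun hx => ⟨S.equivFin ⟨x, hx⟩, by simp⟩

end Vale.Agent.P208
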