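import Vale.Agent.P208.Defs

open Metric Set

namespace Vale.Agent.P208

lemma Cov.mono {N M : ℕ} {S T : Set E2} (h : Cov N S) (hST : T ⊆ S) (hNM : N ≤ M) : Cov M T := by
  intro x R hR
  obtain ⟨t, ht, hc⟩ := h x R hR
  exact ⟨t, ht.trans hNM, (inter_subset_inter_left _ hST).trans hc⟩

lemma Cov.union {N M : ℕ} {S T : Set E2} (hS : Cov N S) (hT : Cov M T) : Cov (N + M) (S ∪ T) := by
  classical
  intro x R hR
  obtain ⟨s, hs, hs'⟩ := hS x R hR
  obtain ⟨t, ht, ht'⟩ := hT x R hR
  refine ⟨s ∪ t, (Finset.card_union_le _ _).trans (by omega), fun p ⟨hp, hpx⟩ => ?_⟩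
  simp only [mem_iUnion₂]
  rcases hp with hp | hp
  · obtain ⟨c, hc, hpc⟩ := mem_iUnion₂.1 (hs' ⟨hp, hpx⟩)
    exact ⟨c, Finset.mem_union_left _ hc, hpc⟩
  · obtain ⟨c, hc, hpc⟩ := mem_iUnion₂.1 (ht' ⟨hp, hpx⟩)
    exact ⟨c, Finset.mem_union_right _ hc, hpc⟩

lemma cov_singleton (p : E2) : Cov 1 {p} := by
  intro x R hR
  refine ⟨{p}, by simp, fun q hq => mem_iUnion₂.2 ⟨p, by simp, ?_⟩⟩
  rw [hq.1]
  exact mem_closedBall_self (by linarith)

/-- Iterating the covering property. -/
lemma Cov.iterate {N : ℕ} {S : Set E2} (h : Cov N S) (j : ℕ) (x : E2) {R : ℝ} (hR : 0 < R) :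
    ∃ t : Finset E2, t.card ≤ N ^ j ∧
      S ∩ closedBall x R ⊆ ⋃ c ∈ t, closedBall c (R / 2 ^ j) := by
  classical
  induction j with
  | zero => exact ⟨{x}, by simp, fun p hp => mem_iUnion₂.2 ⟨x, by simp, by simpa using hp.2⟩⟩
  | succ j ih =>
    obtain ⟨t, ht, hc⟩ := ih
    choose u hu hu' using fun c : E2 => h c (R / 2 ^ j) (by positivity)
    refine ⟨t.biUnion u, ?_, fun p hp => ?_⟩
    · calc (t.biUnion u).card ≤ ∑ c ∈ t, (u c).card := Finset.card_biUnion_le
        _ ≤ ∑ _c ∈ t, N := Finset.sum_le_sum fun c _ => hu c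
        _ ≤ N ^ (j + 1) := by
            rw [Finset.sum_const, smul_eq_mul, pow_succ]
            exact Nat.mul_le_mul_right _ ht
    · obtain ⟨c, hct, hpc⟩ := mem_iUnion₂.1 (hc hp)
      obtain ⟨d, hd, hpd⟩ := mem_iUnion₂.1 (hu' c ⟨hp.1, hpc⟩)
      refine mem_iUnion₂.2 ⟨d, Finset.mem_biUnion.2 ⟨c, hct, hd⟩, ?_⟩
      rwa [pow_succ, ← div_div]

namespace Nest

lemma radius_pos {N : ℕ} : ∀ {T : Nest}, T.WF N → 0 < T.radius
  | node _ _ _ _ _, h => h.1

lemma base_subset_carrier : ∀ T : Nest, T.base ⊆ T.carrier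
  | node _ _ _ _ _ => subset_union_left

lemma carrier_subset {N : ℕ} : ∀ {T : Nest}, T.WF N → T.carrier ⊆ closedBall T.center T.radius
  | node B c r m ch, h => by
    refine union_subset h.2.1 (iUnion_subset fun i => ?_)
    obtain ⟨-, h2, -, h4⟩ := h.2.2.2.1 i
    refine (carrier_subset h4).trans (closedBall_subset_closedBall' ?_)
    have := radius_pos h4
    change (ch i).radius + dist (ch i).center c ≤ r
    linarith

/-- The part of a child outside grandchildren that matter at scale `R` has a small cover. -/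
lemma cover_flat {N : ℕ} {T : Nest} (h : T.WF N) (x : E2) {R : ℝ} (hR : 0 < R) :
    ∃ t : Finset E2, t.card ≤ N ^ 3 ∧ ∀ B c r m (ch : Fin m → Nest), T = node B c r m ch →
      ∀ p ∈ closedBall x R,
      (p ∈ B ∨ ∃ i, (ch i).radius ≤ R / 16 ∧ p ∈ (ch i).carrier) →
      ∃ d ∈ t, p ∈ closedBall d (R / 2) := by
  cases T with
  | node B c r m ch =>
    obtain ⟨-, -, hB, hch, -⟩ := h
    obtain ⟨t, ht, hc⟩ := hB.iterate 3 x (show (0 : ℝ) < 2 * R by linarith)
    refine ⟨t, ht, ?_⟩
    rintro B' c' r' m' ch' ⟨⟩ p hp (hpB | ⟨i, hi, hpi⟩)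
    · obtain ⟨d, hd, hpd⟩ := mem_iUnion₂.1 (hc ⟨hpB, closedBall_subset_closedBall (by linarith) hp⟩)
      exact ⟨d, hd, closedBall_subset_closedBall (by norm_num; linarith) hpd⟩
    · obtain ⟨h1, -, -, h4⟩ := hch i
      have hpi' := carrier_subset h4 hpi
      rw [mem_closedBall] at hp hpi'
      have hci : dist (ch i).center x ≤ 2 * R := by
        linarith [dist_triangle (ch i).center p x, dist_comm p (ch i).center]
      obtain ⟨d, hd, hpd⟩ := mem_iUnion₂.1 (hc ⟨h1, hci⟩)
      refine ⟨d, hd, ?_⟩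
      rw [mem_closedBall] at hpd ⊢
      linarith [dist_triangle p (ch i).center d]

/-- A well-formed nest is doubling, with a constant depending only on `N`. -/
theorem cov_carrier (N : ℕ) : ∀ T : Nest, T.WF N → Cov (N ^ 3 + N ^ 10 * N ^ 3) T.carrier
  | node B c r m ch, h => by
    classical
    intro x R hR
    have hch := h.2.2.2.1
    have hsib := h.2.2.2.2
    let big : Fin m → Prop := fun i =>
      R / 16 < (ch i).radius ∧ ((ch i).carrier ∩ closedBall x R).Nonempty
    have hbigd : ∀ i, big i → dist x (ch i).center ≤ R + (ch i).radius := fun i hi => by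
      obtain ⟨p, hp, hpx⟩ := hi.2
      have := carrier_subset (hch i).2.2.2 hp
      rw [mem_closedBall] at this hpx
      linarith [dist_triangle x p (ch i).center, dist_comm x p]
    by_cases hA : ∃ i, big i ∧ ∃ B' c' r' m', ∃ ch' : Fin m' → Nest, ch i = node B' c' r' m' ch' ∧
        ∃ j, R / 16 < (ch' j).radius ∧ ((ch' j).carrier ∩ closedBall x R).Nonempty
    · obtain ⟨i, -, B', c', r', m', ch', hi, j, hj, p, hp, hpx⟩ := hA
      have hiWF := (hch i).2.2.2
      rw [hi] at hiWF
      obtain ⟨-, hj2, -, hjWF⟩ := hiWF.2.2.2.1 j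
      have hpj := carrier_subset hjWF hp
      have hsub : closedBall x R ⊆ ball (ch i).center (ch i).radius := by
        intro q hq
        rw [mem_closedBall] at hpj hpx hq
        rw [mem_ball, hi]
        simp only [center, radius]
        linarith [dist_triangle q x c', dist_triangle x p c', dist_triangle p (ch' j).center c',
          dist_comm x p]
      obtain ⟨t, ht, hc⟩ := cov_carrier N (ch i) (hch i).2.2.2 x R hR
      refine ⟨t, ht, fun q ⟨hq, hqx⟩ => hc ⟨?_, hqx⟩⟩
      rcases hq with hq | hq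
      · exact base_subset_carrier _ ((hch i).2.2.1 ⟨hq, ball_subset_closedBall (hsub hqx)⟩)
      · obtain ⟨l, hl⟩ := mem_iUnion.1 hq
        rcases eq_or_ne l i with rfl | hli
        · exact hl
        · exfalso
          have h1 := mem_closedBall.1 (carrier_subset (hch l).2.2.2 hl)
          have h2 := mem_ball.1 (hsub hqx)
          have h3 := (hsib l i).2 hli
          linarith [dist_triangle (ch l).center q (ch i).center, dist_comm q (ch l).center]
    · obtain ⟨t₀, ht₀, hc₀⟩ := cover_flat h x hR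
      choose s hs hs' using fun i : Fin m => cover_flat (hch i).2.2.2 x hR
      let S : Finset (Fin m) := Finset.univ.filter big
      have hcard : S.card ≤ N ^ 10 := by
        rcases S.eq_empty_or_nonempty with he | ⟨i₀, hi₀⟩
        · simp [he]
        have hb₀ : big i₀ := (Finset.mem_filter.1 hi₀).2
        have hr₀ := radius_pos (hch i₀).2.2.2
        obtain ⟨t, ht, hc⟩ :=
          h.2.2.1.iterate 10 x (show (0 : ℝ) < 68 * (ch i₀).radius by linarith)
        have hmem : ∀ i ∈ S, ∃ d ∈ t, (ch i).center ∈ closedBall d (68 * (ch i₀).radius / 2 ^ 10) := by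
          intro i hi
          refine (mem_iUnion₂.1 (hc ⟨(hch i).1, ?_⟩)).imp fun d hd => ⟨hd.1, hd.2⟩
          have hb : big i := (Finset.mem_filter.1 hi).2
          rw [mem_closedBall, dist_comm]
          linarith [hbigd i hb, (hsib i i₀).1, hb.1]
        choose! d hd hd' using hmem
        refine (Finset.card_le_card_of_injOn d hd ?_).trans ht
        intro i hi l hl hil
        by_contra hne
        have h1 := mem_closedBall.1 (hd' i hi)
        have h2 := mem_closedBall.1 (hd' l hl)
        rw [hil] at h1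
        have h3 := (hsib i l).2 hne
        have h4 := (hsib i₀ i).1
        have h5 := radius_pos (hch l).2.2.2
        norm_num at h1 h2
        linarith [dist_triangle_right (ch i).center (ch l).center (d l)]
      refine ⟨t₀ ∪ S.biUnion s, ?_, fun p ⟨hp, hpx⟩ => ?_⟩
      · refine (Finset.card_union_le _ _).trans (add_le_add ht₀ (Finset.card_biUnion_le.trans ?_))
        exact (Finset.sum_le_card_nsmul _ _ (N ^ 3) fun i _ => hs i).trans
          (Nat.mul_le_mul_right _ hcard)
      · simp only [mem_iUnion₂]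
        rcases hp with hp | hp
        · obtain ⟨d, hd, hpd⟩ := hc₀ _ _ _ _ _ rfl p hpx (Or.inl hp)
          exact ⟨d, Finset.mem_union_left _ hd, hpd⟩
        obtain ⟨i, hi⟩ := mem_iUnion.1 hp
        rcases le_or_gt (ch i).radius (R / 16) with hsm | hbg
        · obtain ⟨d, hd, hpd⟩ := hc₀ _ _ _ _ _ rfl p hpx (Or.inr ⟨i, hsm, hi⟩)
          exact ⟨d, Finset.mem_union_left _ hd, hpd⟩
        · have hib : big i := ⟨hbg, p, hi, hpx⟩
          have hiS : i ∈ S := Finset.mem_filter.2 ⟨Finset.mem_univ _, hib⟩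
          cases hci : ch i with
          | node B' c' r' m' ch' =>
            rw [hci] at hi
            have key : p ∈ B' ∨ ∃ j, (ch' j).radius ≤ R / 16 ∧ p ∈ (ch' j).carrier := by
              rcases hi with hi | hi
              · exact Or.inl hi
              · obtain ⟨j, hj⟩ := mem_iUnion.1 hi
                refine Or.inr ⟨j, not_lt.1 fun hjb => hA ?_, hj⟩
                exact ⟨i, hib, B', c', r', m', ch', hci, j, hjb, p, hj, hpx⟩
            obtain ⟨d, hd, hpd⟩ := hs' i B' c' r' m' ch' hci p hpx key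
            exact ⟨d, Finset.mem_union_right _ (Finset.mem_biUnion.2 ⟨i, hiS, hd⟩), hpd⟩

end Nest
end Vale.Agent.P208
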