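import Mathlib

/-!
Definitions for a doubling subset of Hilbert space with no bi-Lipschitz embedding into any
finite dimensional Euclidean space.

`Cov` is the covering property, `Nest` a finite nested family of balls with base sets used to prove
it, `PTree` a finite tree of finite point sets whose branches are doubling.
-/

open Metric Set

namespace Vale.Agent.P208

/-- Real separable Hilbert space. -/
abbrev E2 := lp (fun _ : ℕ => ℝ) 2

/-- Euclidean space of dimension `k`. -/
abbrev Euc (k : ℕ) := EuclideanSpace ℝ (Fin k)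

/-- Every closed ball meets `S` in a set covered by at most `N` closed balls of half the radius. -/
def Cov (N : ℕ) (S : Set E2) : Prop :=
  ∀ (x : E2) (R : ℝ), 0 < R →
    ∃ t : Finset E2, t.card ≤ N ∧ S ∩ closedBall x R ⊆ ⋃ c ∈ t, closedBall c (R / 2)

/-- Nested balls, each carrying a base set. -/
inductive Nest where
  | node (B : Set E2) (c : E2) (r : ℝ) (m : ℕ) (ch : Fin m → Nest)

namespace Nest

/-- The base set of the top ball. -/
def base : Nest → Set E2
  | node B _ _ _ _ => B

/-- The centre of the top ball. -/
def center : Nest → E2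
  | node _ c _ _ _ => c

/-- The radius of the top ball. -/
def radius : Nest → ℝ
  | node _ _ r _ _ => r

/-- The union of all base sets. -/
def carrier : Nest → Set E2
  | node B _ _ _ ch => B ∪ ⋃ i, (ch i).carrier

/-- Well-formedness with covering constant `N`. -/
def WF (N : ℕ) : Nest → Prop
  | node B c r _ ch => 0 < r ∧ B ⊆ closedBall c r ∧ Cov N B ∧
      (∀ i, (ch i).center ∈ B ∧ dist (ch i).center c + 64 * (ch i).radius < r ∧
        B ∩ closedBall (ch i).center (ch i).radius ⊆ (ch i).base ∧ (ch i).WF N) ∧
      ∀ i j, (ch i).radius ≤ 4 * (ch j).radius ∧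
        (i ≠ j → (ch i).radius + (ch j).radius ≤ dist (ch i).center (ch j).center)

end Nest

/-- A finite rooted tree, each node carrying finitely many points. -/
inductive PTree where
  | node (p : ℕ) (pt : Fin p → E2) (m : ℕ) (ch : Fin m → PTree)

/-- A set of pairs is the graph of a map with distortion at most `D`. -/
def BiLipOn {k : ℕ} (D : ℝ) (G : Set (E2 × Euc k)) : Prop :=
  ∀ a ∈ G, ∀ b ∈ G, ‖a.1 - b.1‖ ≤ ‖a.2 - b.2‖ ∧ ‖a.2 - b.2‖ ≤ D * ‖a.1 - b.1‖

/-- The tree extends the partial map `G` to a map with distortion at most `D` on every branch. -/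
def Emb (k : ℕ) (D : ℝ) : PTree → Set (E2 × Euc k) → Prop
  | .node p pt _ ch, G => ∃ v : Fin p → Euc k,
      BiLipOn D (G ∪ range fun i => (pt i, v i)) ∧
      ∀ i, Emb k D (ch i) (G ∪ range fun i => (pt i, v i))

/-- Points are in the unit ball, new on their branch, and branches are covering with constant `N`. -/
def TreeGood (N : ℕ) : PTree → Set E2 → Prop
  | .node _ pt _ ch, A => Function.Injective pt ∧ (∀ i, pt i ∉ A ∧ ‖pt i‖ ≤ 1) ∧
      Cov N (A ∪ range pt) ∧ ∀ i, TreeGood N (ch i) (A ∪ range pt)

end Vale.Agent.P208
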