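import Vale.Agent.P208.Cover

open Metric Set

namespace Vale.Agent.P208

/-- The `n`-th unit coordinate vector. -/
noncomputable def bv (n : ℕ) : E2 := lp.single 2 n (1 : ℝ)

lemma inner_bv (n : ℕ) (x : E2) : inner ℝ (bv n) x = x n := by
  simp [bv, lp.inner_single_left]

lemma bv_apply (n m : ℕ) : bv n m = if m = n then (1 : ℝ) else 0 := by
  simp [bv, Pi.single_apply]

lemma norm_bv (n : ℕ) : ‖bv n‖ = 1 := by
  simp [bv, lp.norm_single]

lemma orthonormal_bv : Orthonormal ℝ bv := by
  rw [orthonormal_iff_ite]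
  intro i j
  rw [inner_bv, bv_apply]

lemma bv_ne_zero (n : ℕ) : bv n ≠ 0 := fun h => by simpa [h] using norm_bv n

/-- Shifting the coordinates up by two. -/
noncomputable def shift2 : E2 →ₗᵢ[ℝ] E2 :=
  (orthonormal_bv.comp (fun n => n + 2) fun a b h => by simpa using h).orthogonalFamily.linearIsometry

lemma inner_bv_shift2 (x : E2) {j : ℕ} (hj : j < 2) : inner ℝ (bv j) (shift2 x) = 0 := by
  have h := (innerSL ℝ (bv j)).hasSum
    (OrthogonalFamily.hasSum_linearIsometry
      ((orthonormal_bv.comp (fun n => n + 2) fun a b h => by simpa using h).orthogonalFamily) x)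
  refine (h.unique ?_)
  convert! hasSum_zero with i
  simp [innerSL_apply_apply, inner_smul_right, inner_bv, bv_apply]
  omega

/-- A similarity of Hilbert space. -/
structure Sim where
  /-- the image of the origin -/
  c : E2
  /-- the ratio -/
  σ : ℝ
  pos : 0 < σ
  /-- the orthogonal part -/
  U : E2 ≃ₗᵢ[ℝ] E2

namespace Sim

/-- The map of a similarity. -/
noncomputable def app (g : Sim) (x : E2) : E2 := g.c + g.σ • g.U x

/-- The inverse map. -/
noncomputable def inv (g : Sim) (y : E2) : E2 := g.U.symm (g.σ⁻¹ • (y - g.c))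

lemma app_inv (g : Sim) (y : E2) : g.app (g.inv y) = y := by
  simp [app, inv, smul_smul, g.pos.ne']

lemma inv_app (g : Sim) (x : E2) : g.inv (g.app x) = x := by
  simp [app, inv, smul_smul, g.pos.ne']

lemma app_injective (g : Sim) : Function.Injective g.app :=
  Function.LeftInverse.injective g.inv_app

lemma dist_app (g : Sim) (x y : E2) : dist (g.app x) (g.app y) = g.σ * dist x y := by
  simp only [app, dist_add_left, dist_smul₀, LinearIsometryEquiv.dist_map]
  rw [Real.norm_of_nonneg g.pos.le]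

lemma image_closedBall (g : Sim) (x : E2) (R : ℝ) :
    g.app '' closedBall x R = closedBall (g.app x) (g.σ * R) := by
  ext y
  simp only [mem_image, mem_closedBall]
  constructor
  · rintro ⟨z, hz, rfl⟩
    rw [dist_app]
    exact mul_le_mul_of_nonneg_left hz g.pos.le
  · intro hy
    refine ⟨g.inv y, ?_, g.app_inv y⟩
    rw [← g.app_inv y, dist_app] at hy
    exact le_of_mul_le_mul_left hy g.pos

lemma image_ball (g : Sim) (x : E2) (R : ℝ) :
    g.app '' ball x R = ball (g.app x) (g.σ * R) := by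
  ext y
  simp only [mem_image, mem_ball]
  constructor
  · rintro ⟨z, hz, rfl⟩
    rw [dist_app]
    exact mul_lt_mul_of_pos_left hz g.pos
  · intro hy
    refine ⟨g.inv y, ?_, g.app_inv y⟩
    rw [← g.app_inv y, dist_app] at hy
    exact lt_of_mul_lt_mul_left hy g.pos.le

lemma app_affine (g : Sim) (p q : E2) (t : ℝ) :
    g.app (p + t • (q - p)) = g.app p + t • (g.app q - g.app p) := by
  simp only [app, map_add, map_smul, map_sub, smul_add, smul_sub, smul_comm g.σ t]
  module

lemma image_segment (g : Sim) (p q : E2) :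
    g.app '' segment ℝ p q = segment ℝ (g.app p) (g.app q) := by
  rw [segment_eq_image', segment_eq_image', Set.image_image]
  simp only [app_affine]

/-- Composition. -/
noncomputable def comp (g h : Sim) : Sim :=
  ⟨g.app h.c, g.σ * h.σ, mul_pos g.pos h.pos, h.U.trans g.U⟩

lemma comp_app (g h : Sim) (x : E2) : (g.comp h).app x = g.app (h.app x) := by
  simp [comp, app, smul_smul, add_assoc]

/-- The identity. -/
noncomputable def one : Sim := ⟨0, 1, one_pos, LinearIsometryEquiv.refl ℝ E2⟩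

lemma one_app (x : E2) : one.app x = x := by simp [one, app]

/-- The similarity sending `-bv 0` to `p` and `bv 0` to `q`. -/
noncomputable def place (p q : E2) (h : p ≠ q) : Sim :=
  ⟨(2 : ℝ)⁻¹ • (p + q), ‖q - p‖ / 2, by
    have : q - p ≠ 0 := sub_ne_zero.2 h.symm
    positivity,
    Submodule.reflection (Submodule.span ℝ {bv 0 - ‖q - p‖⁻¹ • (q - p)})ᗮ⟩

lemma place_U (p q : E2) (h : p ≠ q) : (place p q h).U (bv 0) = ‖q - p‖⁻¹ • (q - p) := by
  refine Submodule.reflection_sub ?_
  rw [norm_bv, norm_smul, norm_inv, norm_norm, inv_mul_cancel₀]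
  exact norm_ne_zero_iff.2 (sub_ne_zero.2 h.symm)

lemma place_right (p q : E2) (h : p ≠ q) : (place p q h).app (bv 0) = q := by
  have h0 : ‖q - p‖ ≠ 0 := norm_ne_zero_iff.2 (sub_ne_zero.2 h.symm)
  rw [app, place_U]
  simp only [place, smul_smul]
  rw [div_mul_eq_mul_div, mul_inv_cancel₀ h0]
  module

lemma place_left (p q : E2) (h : p ≠ q) : (place p q h).app (-bv 0) = p := by
  have h0 : ‖q - p‖ ≠ 0 := norm_ne_zero_iff.2 (sub_ne_zero.2 h.symm)
  rw [app, map_neg, place_U]
  simp only [place, smul_neg, smul_smul]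
  rw [div_mul_eq_mul_div, mul_inv_cancel₀ h0]
  module

end Sim

lemma Cov.image {N : ℕ} {S : Set E2} (h : Cov N S) (g : Sim) : Cov N (g.app '' S) := by
  classical
  intro x R hR
  obtain ⟨t, ht, hc⟩ := h (g.inv x) (R / g.σ) (div_pos hR g.pos)
  refine ⟨t.image g.app, Finset.card_image_le.trans ht, ?_⟩
  rintro _ ⟨⟨p, hp, rfl⟩, hpx⟩
  rw [mem_closedBall, ← g.app_inv x, Sim.dist_app, ← le_div_iff₀' g.pos] at hpx
  obtain ⟨c, hc, hpc⟩ := mem_iUnion₂.1 (hc ⟨hp, hpx⟩)
  refine mem_iUnion₂.2 ⟨g.app c, Finset.mem_image_of_mem _ hc, ?_⟩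
  rw [mem_closedBall, Sim.dist_app, ← le_div_iff₀' g.pos]
  refine le_of_le_of_eq hpc ?_
  ring

lemma cov_segment (p q : E2) : Cov 5 (segment ℝ p q) := by
  classical
  intro x R hR
  rw [segment_eq_image']
  by_cases hne : ((fun θ : ℝ => p + θ • (q - p)) '' Icc 0 1 ∩ closedBall x R).Nonempty
  · obtain ⟨_, ⟨t₀, -, rfl⟩, ht₀⟩ := hne
    let v := q - p
    refine ⟨(Finset.Icc (-2 : ℤ) 2).image fun j : ℤ => p + (t₀ + j * (R / ‖v‖)) • v,
      Finset.card_image_le.trans (by simp), ?_⟩
    rintro _ ⟨⟨t, -, rfl⟩, ht⟩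
    suffices ∃ a : ℤ, a ∈ Finset.Icc (-2) 2 ∧
        dist (p + t • v) (p + (t₀ + a * (R / ‖v‖)) • v) ≤ R / 2 by
      obtain ⟨a, ha, ha'⟩ := this
      exact mem_iUnion₂.2 ⟨_, Finset.mem_image_of_mem _ ha, mem_closedBall.2 ha'⟩
    have hd : |t - t₀| * ‖v‖ ≤ 2 * R := by
      have h2 := dist_triangle_right (p + t • v) (p + t₀ • v) x
      rw [dist_add_left, dist_eq_norm, ← sub_smul, norm_smul, Real.norm_eq_abs] at h2
      linarith [mem_closedBall.1 ht, mem_closedBall.1 ht₀]
    rcases eq_or_ne v 0 with hv | hv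
    · refine ⟨0, by simp, ?_⟩
      simp [hv]
      linarith
    have hv' : 0 < ‖v‖ := norm_pos_iff.2 hv
    let u := (t - t₀) * ‖v‖ / R
    have hu : |u| ≤ 2 := by
      rw [abs_div, abs_mul, abs_norm, abs_of_pos hR, div_le_iff₀ hR]
      exact hd
    refine ⟨round u, Finset.mem_Icc.2 ?_, ?_⟩
    · have h1 := abs_sub_round u
      rw [abs_le] at hu h1
      constructor
      · by_contra hc
        have : (round u : ℝ) ≤ -3 := by exact_mod_cast (show round u ≤ -3 by omega)
        linarith [h1.2]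
      · by_contra hc
        have : (3 : ℝ) ≤ round u := by exact_mod_cast (show 3 ≤ round u by omega)
        linarith [h1.1]
    · rw [dist_add_left, dist_eq_norm, ← sub_smul, norm_smul, Real.norm_eq_abs]
      calc |t - (t₀ + round u * (R / ‖v‖))| * ‖v‖
          = |u - round u| * R := by
            rw [← abs_of_pos hv', ← abs_of_pos hR, ← abs_mul, ← abs_mul, abs_of_pos hv',
              abs_of_pos hR]
            congr 1
            simp only [u]
            field_simp
            ring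
        _ ≤ 1 / 2 * R := mul_le_mul_of_nonneg_right (abs_sub_round u) hR.le
        _ = R / 2 := by ring
  · exact ⟨∅, by simp, fun z hz => (hne ⟨z, hz⟩).elim⟩

namespace Nest

/-- The image of a nest under a similarity. -/
noncomputable def map (g : Sim) : Nest → Nest
  | node B c r m ch => node (g.app '' B) (g.app c) (g.σ * r) m fun i => map g (ch i)

lemma map_base (g : Sim) : ∀ T : Nest, (T.map g).base = g.app '' T.base
  | node _ _ _ _ _ => rfl

lemma map_center (g : Sim) : ∀ T : Nest, (T.map g).center = g.app T.center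
  | node _ _ _ _ _ => rfl

lemma map_radius (g : Sim) : ∀ T : Nest, (T.map g).radius = g.σ * T.radius
  | node _ _ _ _ _ => rfl

lemma map_carrier (g : Sim) : ∀ T : Nest, (T.map g).carrier = g.app '' T.carrier
  | node B c r m ch => by
    simp only [map, carrier, image_union, image_iUnion, fun i => map_carrier g (ch i)]

lemma map_WF {N : ℕ} (g : Sim) : ∀ {T : Nest}, T.WF N → (T.map g).WF N
  | node B c r m ch, h => by
    obtain ⟨h1, h2, h3, h4, h5⟩ := h
    refine ⟨mul_pos g.pos h1, ?_, h3.image g, fun i => ?_, fun i j => ?_⟩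
    · exact (image_mono h2).trans (g.image_closedBall c r).le
    · obtain ⟨a, b, e, f⟩ := h4 i
      refine ⟨?_, ?_, ?_, map_WF g f⟩
      · rw [map_center]; exact mem_image_of_mem _ a
      · rw [map_center, map_radius, Sim.dist_app]
        calc g.σ * dist (ch i).center c + 64 * (g.σ * (ch i).radius)
            = g.σ * (dist (ch i).center c + 64 * (ch i).radius) := by ring
          _ < g.σ * r := mul_lt_mul_of_pos_left b g.pos
      · rw [map_center, map_radius, map_base, ← g.image_closedBall, ← image_inter g.app_injective]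
        exact image_mono e
    · simp only [map_center, map_radius, Sim.dist_app]
      refine ⟨?_, fun hij => ?_⟩
      · calc g.σ * (ch i).radius ≤ g.σ * (4 * (ch j).radius) :=
            mul_le_mul_of_nonneg_left (h5 i j).1 g.pos.le
          _ = 4 * (g.σ * (ch j).radius) := by ring
      · rw [← mul_add]
        exact mul_le_mul_of_nonneg_left ((h5 i j).2 hij) g.pos.le

end Nest

/-- The unit axis. -/
noncomputable def axisSeg : Set E2 := segment ℝ (-bv 0) (bv 0)

lemma axisSeg_subset : axisSeg ⊆ closedBall 0 1 :=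
  (convex_closedBall 0 1).segment_subset (by simp [norm_bv]) (by simp [norm_bv])

lemma place_axisSeg (p q : E2) (h : p ≠ q) :
    (Sim.place p q h).app '' axisSeg = segment ℝ p q := by
  rw [axisSeg, Sim.image_segment, Sim.place_left, Sim.place_right]

/-- The part of a segment away from its ends. -/
def core (κ : ℝ) (p q : E2) : Set E2 := (fun θ : ℝ => p + θ • (q - p)) '' Icc κ (1 - κ)

/-- The subdivision points of the core of a segment. -/
noncomputable def mark (κ : ℝ) (p q : E2) (K l : ℕ) : E2 :=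
  p + (κ + (l : ℝ) / K * (1 - 2 * κ)) • (q - p)

/-- Choice of subdivisions making every piece an admissible child. -/
lemma exists_pieces {ι : Type*} [Fintype ι] (P Q : ι → E2) {κ : ℝ} (hκ : 0 < κ) (hκ' : κ < 1 / 2)
    (C : Set E2) (hC : IsClosed C) (hne : ∀ g, P g ≠ Q g)
    (hball : ∀ g, core κ (P g) (Q g) ⊆ ball 0 1)
    (hdC : ∀ g, Disjoint (core κ (P g) (Q g)) C)
    (hdS : ∀ g h, g ≠ h → Disjoint (core κ (P g) (Q g)) (segment ℝ (P h) (Q h))) :
    ∃ K : ι → ℕ, (∀ g, 0 < K g) ∧
      ∀ g, ∀ l < K g, let p := mark κ (P g) (Q g) (K g) l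
        let q := mark κ (P g) (Q g) (K g) (l + 1)
        p ≠ q ∧ (2 : ℝ)⁻¹ • (p + q) ∈ segment ℝ (P g) (Q g) ∧
        dist ((2 : ℝ)⁻¹ • (p + q)) 0 + 64 * (‖q - p‖ / 2) < 1 ∧
        (C ∪ ⋃ h, segment ℝ (P h) (Q h)) ∩ closedBall ((2 : ℝ)⁻¹ • (p + q)) (‖q - p‖ / 2)
          ⊆ segment ℝ p q ∧
        ∀ g' : ι, ∀ l' < K g', let p' := mark κ (P g') (Q g') (K g') l'
          let q' := mark κ (P g') (Q g') (K g') (l' + 1)
          ‖q - p‖ / 2 ≤ 4 * (‖q' - p'‖ / 2) ∧
          (¬(g = g' ∧ l = l') → ‖q - p‖ / 2 + ‖q' - p'‖ / 2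
            ≤ dist ((2 : ℝ)⁻¹ • (p + q)) ((2 : ℝ)⁻¹ • (p' + q'))) := by
  classical
  have hcomp : ∀ g, IsCompact (core κ (P g) (Q g)) := fun g =>
    isCompact_Icc.image (by fun_prop)
  have key : ∀ g, ∃ η > 0, (∀ z ∈ core κ (P g) (Q g),
      dist z 0 + 65 * η ≤ 1 ∧ (∀ w ∈ C, 4 * η < dist z w) ∧
      ∀ h, h ≠ g → ∀ w ∈ segment ℝ (P h) (Q h), 4 * η < dist z w) := by
    intro g
    let F : Set E2 := C ∪ (⋃ h ∈ ({h : ι | h ≠ g}), segment ℝ (P h) (Q h)) ∪ (ball 0 1)ᶜ
    have hF : IsClosed F := by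
      refine ((hC.union ?_).union isOpen_ball.isClosed_compl)
      refine Set.Finite.isClosed_biUnion (Set.toFinite _) fun h _ => ?_
      rw [segment_eq_image']
      exact (isCompact_Icc.image (by fun_prop)).isClosed
    have hd : Disjoint (core κ (P g) (Q g)) F := by
      refine ((hdC g).union_right ?_).union_right (disjoint_compl_right_iff_subset.2 (hball g))
      simp only [disjoint_iUnion_right]
      exact fun h hh => hdS g h (Ne.symm hh)
    obtain ⟨r, hr, hrd⟩ := (hcomp g).exists_cthickening_subset_open hF.isOpen_compl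
      (subset_compl_iff_disjoint_right.2 hd)
    refine ⟨r / 66, by positivity, fun z hz => ?_⟩
    have hw : ∀ w, dist z w ≤ r → w ∉ F := fun w hw hwF => by
      refine hrd ?_ hwF
      exact mem_cthickening_of_dist_le w z r _ hz (by rwa [dist_comm])
    refine ⟨?_, fun w hwC => ?_, fun h hh w hwh => ?_⟩
    · by_contra hc
      push Not at hc
      have hz1 : dist z 0 < 1 := hball g hz
      rcases eq_or_ne z 0 with rfl | hz0
      · refine hw (r • bv 0) ?_ ?_
        · simp [norm_smul, norm_bv, abs_of_pos hr]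
        · right
          simp [norm_smul, norm_bv, abs_of_pos hr] at hc ⊢
          linarith
      · refine hw (z + (r / ‖z‖) • z) ?_ ?_
        · simp [norm_smul, abs_of_pos hr, norm_ne_zero_iff.2 hz0]
        · right
          have : 0 < ‖z‖ := norm_pos_iff.2 hz0
          simp only [dist_zero_right] at hc
          simp only [mem_compl_iff, mem_ball, dist_zero_right, not_lt]
          rw [show z + (r / ‖z‖) • z = (1 + r / ‖z‖) • z by module, norm_smul,
            Real.norm_of_nonneg (by positivity), add_mul, one_mul, div_mul_cancel₀ _ this.ne']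
          linarith
    · by_contra hc
      exact hw w (by linarith) (Or.inl (Or.inl hwC))
    · by_contra hc
      exact hw w (by linarith) (Or.inl (Or.inr (mem_biUnion hh hwh)))
  choose η hη hη' using key
  have h12 : 0 < 1 - 2 * κ := by linarith
  have hlen : ∀ g, 0 < (1 - 2 * κ) * ‖Q g - P g‖ := fun g =>
    mul_pos h12 (norm_pos_iff.2 (sub_ne_zero.2 (hne g).symm))
  obtain ⟨ℓ, hℓ, hℓg⟩ : ∃ ℓ > 0, ∀ g, ℓ ≤ η g ∧ ℓ ≤ (1 - 2 * κ) * ‖Q g - P g‖ := by
    rcases isEmpty_or_nonempty ι with hι | hι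
    · exact ⟨1, one_pos, fun g => isEmptyElim g⟩
    refine ⟨Finset.univ.inf' Finset.univ_nonempty fun g => min (η g) ((1 - 2 * κ) * ‖Q g - P g‖),
      (Finset.lt_inf'_iff _).2 fun g _ => lt_min (hη g) (hlen g), fun g => ?_⟩
    exact le_min_iff.1 (Finset.inf'_le (fun g => min (η g) ((1 - 2 * κ) * ‖Q g - P g‖))
      (Finset.mem_univ g))
  refine ⟨fun g => ⌈(1 - 2 * κ) * ‖Q g - P g‖ / ℓ⌉₊, fun g => Nat.ceil_pos.2
    (div_pos (hlen g) hℓ), ?_⟩
  set K : ι → ℕ := fun g => ⌈(1 - 2 * κ) * ‖Q g - P g‖ / ℓ⌉₊ with hKdef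
  have hK : ∀ g, 0 < (K g : ℝ) := fun g => by
    exact_mod_cast Nat.ceil_pos.2 (div_pos (hlen g) hℓ)
  have hd : ∀ g, ℓ / 2 ≤ (1 - 2 * κ) * ‖Q g - P g‖ / K g ∧
      (1 - 2 * κ) * ‖Q g - P g‖ / K g ≤ ℓ := fun g => by
    have h1 : (1 - 2 * κ) * ‖Q g - P g‖ / ℓ ≤ K g := Nat.le_ceil _
    have h2 : (K g : ℝ) < (1 - 2 * κ) * ‖Q g - P g‖ / ℓ + 1 :=
      Nat.ceil_lt_add_one (div_pos (hlen g) hℓ).le
    have h3 : (1 : ℝ) ≤ (1 - 2 * κ) * ‖Q g - P g‖ / ℓ := (one_le_div hℓ).2 (hℓg g).2
    rw [div_le_iff₀ hℓ] at h1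
    constructor
    · rw [le_div_iff₀ (hK g)]
      have : (K g : ℝ) * ℓ ≤ 2 * ((1 - 2 * κ) * ‖Q g - P g‖ / ℓ) * ℓ :=
        mul_le_mul_of_nonneg_right (by linarith) hℓ.le
      rw [mul_assoc, div_mul_cancel₀ _ hℓ.ne'] at this
      linarith
    · rw [div_le_iff₀ (hK g)]
      linarith
  let mid : ι → ℕ → ℝ := fun g l => κ + ((l : ℝ) + 1 / 2) / K g * (1 - 2 * κ)
  have hmid : ∀ g l, (2 : ℝ)⁻¹ • (mark κ (P g) (Q g) (K g) l + mark κ (P g) (Q g) (K g) (l + 1))
      = P g + mid g l • (Q g - P g) := fun g l => by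
    simp only [mark, mid, Nat.cast_add, Nat.cast_one]
    module
  have hdiff : ∀ g l, mark κ (P g) (Q g) (K g) (l + 1) - mark κ (P g) (Q g) (K g) l
      = ((1 - 2 * κ) / K g) • (Q g - P g) := fun g l => by
    simp only [mark, Nat.cast_add, Nat.cast_one]
    module
  have hr : ∀ g l, ‖mark κ (P g) (Q g) (K g) (l + 1) - mark κ (P g) (Q g) (K g) l‖
      = (1 - 2 * κ) * ‖Q g - P g‖ / K g := fun g l => by
    rw [hdiff, norm_smul, Real.norm_of_nonneg (by have := hK g; positivity)]
    ring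
  have hmidI : ∀ g, ∀ l < K g, mid g l ∈ Icc κ (1 - κ) := fun g l hl => by
    have h1 : ((l : ℝ) + 1) ≤ K g := by exact_mod_cast hl
    have h2 : ((l : ℝ) + 1 / 2) / K g ≤ 1 := (div_le_one (hK g)).2 (by linarith)
    have h3 : 0 ≤ ((l : ℝ) + 1 / 2) / K g := by have := hK g; positivity
    simp only [mid, mem_Icc]
    constructor <;> nlinarith
  have hcore : ∀ g, ∀ l < K g, P g + mid g l • (Q g - P g) ∈ core κ (P g) (Q g) :=
    fun g l hl => mem_image_of_mem _ (hmidI g l hl)
  have hcoreseg : ∀ g, core κ (P g) (Q g) ⊆ segment ℝ (P g) (Q g) := fun g => by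
    rw [segment_eq_image']
    exact image_mono (Icc_subset_Icc hκ.le (by linarith))
  intro g l hl
  simp only [hmid, hr]
  refine ⟨?_, hcoreseg g (hcore g l hl), ?_, ?_, fun g' l' hl' => ⟨?_, fun hne' => ?_⟩⟩
  · intro h
    have h2 := hr g l
    rw [h, sub_self, norm_zero] at h2
    linarith [(hd g).1]
  · linarith [(hη' g _ (hcore g l hl)).1, (hd g).2, (hℓg g).1, hη g]
  · rintro w ⟨hw, hwb⟩
    obtain ⟨-, hwC, hwS⟩ := hη' g _ (hcore g l hl)
    rw [mem_closedBall, dist_comm] at hwb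
    rcases hw with hw | hw
    · linarith [hwC w hw, (hd g).2, (hℓg g).1, hη g]
    obtain ⟨h, hh⟩ := mem_iUnion.1 hw
    rcases eq_or_ne h g with rfl | hhg
    · rw [segment_eq_image'] at hh ⊢
      obtain ⟨θ, -, rfl⟩ := hh
      rw [dist_add_left, dist_eq_norm, ← sub_smul, norm_smul, Real.norm_eq_abs] at hwb
      have hv : 0 < ‖Q h - P h‖ := norm_pos_iff.2 (sub_ne_zero.2 (hne h).symm)
      have hb : |mid h l - θ| ≤ (1 - 2 * κ) / K h / 2 := by
        rw [← mul_le_mul_iff_of_pos_right hv]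
        refine hwb.trans_eq ?_
        ring
      refine ⟨(θ - (κ + (l : ℝ) / K h * (1 - 2 * κ))) / ((1 - 2 * κ) / K h), ?_, ?_⟩
      · have hpos : 0 < (1 - 2 * κ) / K h := div_pos h12 (hK h)
        have e : mid h l = κ + (l : ℝ) / K h * (1 - 2 * κ) + (1 - 2 * κ) / K h / 2 := by
          simp only [mid]; ring
        rw [abs_le] at hb
        rw [mem_Icc, le_div_iff₀ hpos, div_le_iff₀ hpos]
        constructor <;> linarith
      · simp only [hdiff, smul_smul]
        rw [div_mul_cancel₀ _ (div_pos h12 (hK h)).ne']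
        simp only [mark]
        module
    · linarith [hwS h hhg w hh, (hd g).2, (hℓg g).1, hη g]
  · linarith [(hd g).2, (hd g').1]
  · rcases eq_or_ne g g' with rfl | hgg
    · have hll : l ≠ l' := fun h => hne' ⟨rfl, h⟩
      rw [dist_add_left, dist_eq_norm, ← sub_smul, norm_smul, Real.norm_eq_abs]
      have hv : 0 ≤ ‖Q g - P g‖ := norm_nonneg _
      have : (1 - 2 * κ) / K g ≤ |mid g l - mid g l'| := by
        have e : mid g l - mid g l' = ((l : ℝ) - l') * ((1 - 2 * κ) / K g) := by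
          simp only [mid]; ring
        rw [e, abs_mul, abs_of_pos (div_pos h12 (hK g))]
        refine le_mul_of_one_le_left (div_pos h12 (hK g)).le ?_
        rcases lt_or_gt_of_ne hll with h | h
        · have : (l : ℝ) + 1 ≤ l' := by exact_mod_cast h
          rw [abs_of_nonpos (by linarith)]; linarith
        · have : (l' : ℝ) + 1 ≤ l := by exact_mod_cast h
          rw [abs_of_nonneg (by linarith)]; linarith
      calc _ = (1 - 2 * κ) / K g * ‖Q g - P g‖ := by ring
        _ ≤ _ := mul_le_mul_of_nonneg_right this hv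
    · have := (hη' g _ (hcore g l hl)).2.2 g' hgg.symm _ (hcoreseg g' (hcore g' l' hl'))
      linarith [(hd g).2, (hd g').2, (hℓg g).1, (hℓg g').1, hη g]

end Vale.Agent.P208
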