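import Vale.Agent.P208.Common

/-!
The time layout of a tree: a sequence of phases, each a time interval carrying static lines,
and lines of new points moving linearly between the axis and their position.
-/

open Metric Set
open scoped Classical

namespace Vale.Agent.P208

/-- A point at time `t`, height `τ`, with transversal part `τ • c`. -/
noncomputable def emb (t τ : ℝ) (c : E2) : E2 := t • bv 0 + τ • (bv 1 + shift2 c)

lemma emb_inner (t τ : ℝ) (c : E2) :
    inner ℝ (bv 0) (emb t τ c) = t ∧ inner ℝ (bv 1) (emb t τ c) = τ := by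
  constructor <;>
  · rw [emb, inner_add_right, inner_smul_right, inner_smul_right, inner_add_right,
      inner_bv_shift2 c (by norm_num), inner_bv, inner_bv, bv_apply, bv_apply]
    simp

lemma emb_time {t t' τ τ' : ℝ} {c c' : E2} (h : emb t τ c = emb t' τ' c') : t = t' :=
  (emb_inner t τ c).1.symm.trans (h ▸ (emb_inner t' τ' c').1)

lemma emb_height {t t' τ τ' : ℝ} {c c' : E2} (h : emb t τ c = emb t' τ' c') : τ = τ' :=
  (emb_inner t τ c).2.symm.trans (h ▸ (emb_inner t' τ' c').2)

lemma emb_trans {t t' τ τ' : ℝ} {c c' : E2} (h : emb t τ c = emb t' τ' c') (hτ : τ ≠ 0) :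
    c = c' := by
  obtain rfl := emb_time h
  obtain rfl := emb_height h
  simpa [emb, smul_right_inj hτ, shift2.injective.eq_iff] using h

lemma emb_sub (t t' τ : ℝ) (c c' : E2) :
    emb t τ c - emb t' τ c' = (t - t') • bv 0 + τ • shift2 (c - c') := by
  simp only [emb, map_sub]; module

lemma dist_emb_same (t τ : ℝ) (c c' : E2) : dist (emb t τ c) (emb t τ c') = |τ| * dist c c' := by
  rw [dist_eq_norm, emb_sub, sub_self, zero_smul, zero_add, norm_smul, LinearIsometry.norm_map,
    dist_eq_norm, Real.norm_eq_abs]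

lemma norm_bv1_shift (c : E2) : ‖bv 1 + shift2 c‖ ^ 2 = 1 + ‖c‖ ^ 2 := by
  rw [norm_add_sq_real, norm_bv, LinearIsometry.norm_map, inner_bv_shift2 c (by norm_num)]
  ring

lemma norm_emb_sq (t τ : ℝ) (c : E2) : ‖emb t τ c‖ ^ 2 = t ^ 2 + τ ^ 2 * (1 + ‖c‖ ^ 2) := by
  have h : inner ℝ (bv 0) (bv 1 + shift2 c) = 0 := by
    rw [inner_add_right, inner_bv_shift2 c (by norm_num), inner_bv, bv_apply]; simp
  rw [emb, norm_add_sq_real, norm_smul, norm_smul, norm_bv, inner_smul_left, inner_smul_right, h,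
    mul_pow, mul_pow, norm_bv1_shift, Real.norm_eq_abs, Real.norm_eq_abs, sq_abs, sq_abs]
  simp

lemma norm_emb_le {c : E2} (hc : ‖c‖ ≤ 1) (t τ : ℝ) : ‖emb t τ c‖ ≤ |t| + 2 * |τ| := by
  rw [emb]
  refine (norm_add_le _ _).trans (add_le_add ?_ ?_)
  · rw [norm_smul, norm_bv, mul_one, Real.norm_eq_abs]
  · rw [norm_smul, Real.norm_eq_abs, mul_comm (2 : ℝ)]
    refine mul_le_mul_of_nonneg_left ?_ (abs_nonneg _)
    refine (norm_add_le _ _).trans ?_
    rw [norm_bv, LinearIsometry.norm_map]
    linarith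

lemma emb_combo (t t' τ τ' θ : ℝ) (c : E2) :
    emb t τ c + θ • (emb t' τ' c - emb t τ c)
      = emb (t + θ * (t' - t)) (τ + θ * (τ' - τ)) c := by
  simp only [emb]; module

lemma emb_zero_height (t : ℝ) (c : E2) : emb t 0 c = t • bv 0 := by simp [emb]

/-- One phase: an interval of time, the static points and the moving points. -/
structure Phase where
  /-- start time -/
  lo : ℝ
  /-- end time -/
  hi : ℝ
  /-- static points -/
  fixd : Finset E2
  /-- moving points -/
  movd : Finset E2
  /-- whether the moving points rise -/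
  up : Bool

namespace Phase

/-- Height of the moving points at the start. -/
def h₀ (P : Phase) : ℝ := if P.up then 0 else 1

/-- Height of the moving points at the end. -/
def h₁ (P : Phase) : ℝ := if P.up then 1 else 0

/-- Index of the segments of a phase. -/
abbrev Idx (P : Phase) := Option (↥P.fixd ⊕ ↥P.movd)

/-- Transversal point of a segment. -/
noncomputable def pt (P : Phase) : P.Idx → E2
  | none => 0
  | some (.inl a) => a
  | some (.inr c) => c

/-- Height at the start of a segment. -/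
def hL (P : Phase) : P.Idx → ℝ
  | none => 0
  | some (.inl _) => 1
  | some (.inr _) => P.h₀

/-- Height at the end of a segment. -/
def hR (P : Phase) : P.Idx → ℝ
  | none => 0
  | some (.inl _) => 1
  | some (.inr _) => P.h₁

/-- Start of a segment. -/
noncomputable def segL (P : Phase) (i : P.Idx) : E2 := emb P.lo (P.hL i) (P.pt i)

/-- End of a segment. -/
noncomputable def segR (P : Phase) (i : P.Idx) : E2 := emb P.hi (P.hR i) (P.pt i)

lemma hL_mem (P : Phase) (i : P.Idx) : P.hL i = 0 ∨ P.hL i = 1 := by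
  rcases i with _ | _ | _
  · exact Or.inl rfl
  · exact Or.inr rfl
  · simp only [hL, h₀]; split <;> simp

lemma hR_mem (P : Phase) (i : P.Idx) : P.hR i = 0 ∨ P.hR i = 1 := by
  rcases i with _ | _ | _
  · exact Or.inl rfl
  · exact Or.inr rfl
  · simp only [hR, h₁]; split <;> simp

lemma seg_point (P : Phase) (i : P.Idx) (θ : ℝ) :
    P.segL i + θ • (P.segR i - P.segL i)
      = emb (P.lo + θ * (P.hi - P.lo)) (P.hL i + θ * (P.hR i - P.hL i)) (P.pt i) :=
  emb_combo _ _ _ _ _ _

lemma height_bounds (P : Phase) (i : P.Idx) {θ : ℝ} (h0 : 0 ≤ θ) (h1 : θ ≤ 1) :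
    0 ≤ P.hL i + θ * (P.hR i - P.hL i) ∧ P.hL i + θ * (P.hR i - P.hL i) ≤ 1 := by
  rcases P.hL_mem i with h | h <;> rcases P.hR_mem i with h' | h' <;> rw [h, h'] <;>
    constructor <;> linarith

lemma pt_norm {P : Phase} (hP : ∀ y ∈ P.fixd ∪ P.movd, ‖y‖ ≤ 1) (i : P.Idx) : ‖P.pt i‖ ≤ 1 := by
  rcases i with _ | a | c
  · simp [pt]
  · exact hP _ (Finset.mem_union_left _ a.2)
  · exact hP _ (Finset.mem_union_right _ c.2)

/-- Well-formedness of a phase inside the time interval `[0, L]`. -/
structure OK (N : ℕ) (L : ℝ) (P : Phase) : Prop where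
  long : P.lo + 1000 ≤ P.hi
  lo_nonneg : 0 ≤ P.lo
  hi_le : P.hi ≤ L
  norm_le : ∀ y ∈ P.fixd ∪ P.movd, ‖y‖ ≤ 1
  disj : Disjoint P.fixd P.movd
  cov : Cov N (↑P.fixd ∪ ↑P.movd)
  away : P.fixd.Nonempty → 1000 ≤ P.lo ∧ P.hi + 1000 ≤ L
  awayUp : P.movd.Nonempty → P.up = true → P.hi + 1000 ≤ L
  awayDown : P.movd.Nonempty → P.up = false → 1000 ≤ P.lo

end Phase

/-- Inner duration of a tree node, with tent ratio `A`. -/
noncomputable def PTree.inner (A : ℝ) : PTree → ℝ
  | .node _ _ _ ch => 1000 + ∑ i, (2 * A + 1) * PTree.inner A (ch i)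

/-- Total duration of a tree node. -/
noncomputable def PTree.width (A : ℝ) (T : PTree) : ℝ := (2 * A + 1) * T.inner A

/-- Start time of the `j`-th child. -/
noncomputable def childStart (A t : ℝ) {m : ℕ} (ch : Fin m → PTree) (j : ℕ) : ℝ :=
  t + ∑ i : Fin m, if (i : ℕ) < j then (ch i).width A else 0

lemma childStart_zero (A t : ℝ) {m : ℕ} (ch : Fin m → PTree) : childStart A t ch 0 = t := by
  simp [childStart]

lemma childStart_succ (A t : ℝ) {m : ℕ} (ch : Fin m → PTree) (j : Fin m) :
    childStart A t ch (j + 1) = childStart A t ch j + (ch j).width A := by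
  simp only [childStart, add_assoc]
  congr 1
  rw [← Finset.sum_ite_eq' Finset.univ j (fun i => (ch i).width A) |>.trans
    (if_pos (Finset.mem_univ j)), ← Finset.sum_add_distrib]
  refine Finset.sum_congr rfl fun i _ => ?_
  rcases lt_trichotomy (i : ℕ) j with h | h | h
  · rw [if_pos h, if_pos (by omega), if_neg (fun he => by simp [he] at h), add_zero]
  · rw [if_pos (by omega), if_neg (by omega), if_pos (Fin.ext h), zero_add]
  · rw [if_neg (by omega), if_neg (by omega), if_neg (fun he => by simp [he] at h), add_zero]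

lemma childStart_last (A t : ℝ) {m : ℕ} (ch : Fin m → PTree) :
    childStart A t ch m = t + ∑ i, (ch i).width A := by
  simp [childStart]

/-- The phases of a tree starting at time `t`, with ancestors `anc`. -/
noncomputable def PTree.phases (A : ℝ) : PTree → ℝ → Finset E2 → List Phase
  | .node p pt m ch, t, anc =>
    let T := PTree.node p pt m ch
    let S : Finset E2 := Finset.univ.image pt
    let t₁ := t + A * T.inner A
    ⟨t, t₁, anc, S, true⟩ :: ⟨t₁, t₁ + 1000, anc ∪ S, ∅, true⟩ ::
      ((List.ofFn fun i : Fin m =>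
          (ch i).phases A (childStart A (t₁ + 1000) ch i) (anc ∪ S)).flatten ++
        [⟨t₁ + T.inner A, t + T.width A, anc, S, false⟩])

lemma inner_ge {A : ℝ} (hA : 0 ≤ A) : ∀ T : PTree, 1000 ≤ T.inner A
  | .node p pt m ch => by
    rw [PTree.inner]
    have : 0 ≤ ∑ i, (2 * A + 1) * (ch i).inner A :=
      Finset.sum_nonneg fun i _ => mul_nonneg (by linarith) (by linarith [inner_ge hA (ch i)])
    linarith

lemma inner_node (A : ℝ) (p : ℕ) (pt : Fin p → E2) (m : ℕ) (ch : Fin m → PTree) :
    (PTree.node p pt m ch).inner A = 1000 + ∑ i, (ch i).width A := rfl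

lemma width_nonneg {A : ℝ} (hA : 0 ≤ A) (T : PTree) : 0 ≤ T.width A :=
  mul_nonneg (by linarith) (by linarith [inner_ge hA T])

lemma childStart_mono {A t : ℝ} (hA : 0 ≤ A) {m : ℕ} (ch : Fin m → PTree) {i j : ℕ} (h : i ≤ j) :
    childStart A t ch i ≤ childStart A t ch j := by
  refine (add_le_add_iff_left t).2 (Finset.sum_le_sum fun l _ => ?_)
  split_ifs with h1 h2
  · exact le_rfl
  · omega
  · exact width_nonneg hA _
  · exact le_rfl

lemma childStart_bounds {A t : ℝ} (hA : 0 ≤ A) {m : ℕ} (ch : Fin m → PTree) (i : Fin m) :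
    t ≤ childStart A t ch i ∧
      childStart A t ch i + (ch i).width A ≤ t + ∑ j, (ch j).width A := by
  refine ⟨?_, ?_⟩
  · exact (childStart_zero A t ch).symm.le.trans (childStart_mono hA ch (Nat.zero_le _))
  · rw [← childStart_succ, ← childStart_last]
    exact childStart_mono hA ch i.2

/-- Shape of the phases of a node. -/
lemma mem_phases {A t : ℝ} {p : ℕ} {pt : Fin p → E2} {m : ℕ} {ch : Fin m → PTree}
    {anc : Finset E2} {P : Phase} :
    P ∈ (PTree.node p pt m ch).phases A t anc ↔
      let T := PTree.node p pt m ch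
      let S := Finset.univ.image pt
      let t₁ := t + A * T.inner A
      P = ⟨t, t₁, anc, S, true⟩ ∨ P = ⟨t₁, t₁ + 1000, anc ∪ S, ∅, true⟩ ∨
        (∃ i, P ∈ (ch i).phases A (childStart A (t₁ + 1000) ch i) (anc ∪ S)) ∨
        P = ⟨t₁ + T.inner A, t + T.width A, anc, S, false⟩ := by
  rw [PTree.phases]
  simp only [List.mem_cons, List.mem_append, List.mem_flatten, List.mem_ofFn, List.not_mem_nil,
    or_false, exists_exists_eq_and]

lemma phases_in {A : ℝ} (hA : 1 ≤ A) : ∀ (T : PTree) (t : ℝ) (anc : Finset E2),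
    ∀ P ∈ T.phases A t anc, t ≤ P.lo ∧ P.hi ≤ t + T.width A ∧ P.lo + 1000 ≤ P.hi
  | .node p pt m ch, t, anc, P, hP => by
    classical
    have hin := inner_ge (A := A) (by linarith) (.node p pt m ch)
    have hw : (PTree.node p pt m ch).width A
        = 2 * (A * (PTree.node p pt m ch).inner A) + (PTree.node p pt m ch).inner A := by
      rw [PTree.width]; ring
    have hAi : 1000 ≤ A * (PTree.node p pt m ch).inner A := by nlinarith
    have he := inner_node A p pt m ch
    have hs : 0 ≤ ∑ i, (ch i).width A :=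
      Finset.sum_nonneg fun i _ => width_nonneg (by linarith) _
    rcases mem_phases.1 hP with rfl | rfl | ⟨i, hi⟩ | rfl
    · refine ⟨le_rfl, ?_, ?_⟩ <;> dsimp <;> linarith
    · refine ⟨?_, ?_, ?_⟩ <;> dsimp <;> linarith
    · obtain ⟨h1, h2, h3⟩ := phases_in hA (ch i) _ _ P hi
      obtain ⟨h4, h5⟩ := childStart_bounds (t := t + A * (PTree.node p pt m ch).inner A + 1000)
        (show 0 ≤ A by linarith) ch i
      refine ⟨?_, ?_, h3⟩ <;> linarith
    · refine ⟨?_, ?_, ?_⟩ <;> dsimp <;> linarith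

lemma phases_pairwise {A : ℝ} (hA : 1 ≤ A) : ∀ (T : PTree) (t : ℝ) (anc : Finset E2),
    (T.phases A t anc).Pairwise fun P Q => P.hi ≤ Q.lo
  | .node p pt m ch, t, anc => by
    classical
    have hin := inner_ge (A := A) (by linarith) (.node p pt m ch)
    have hAi : 1000 ≤ A * (PTree.node p pt m ch).inner A := by nlinarith
    have hA0 : (0 : ℝ) ≤ A := by linarith
    have hs : 0 ≤ ∑ i, (ch i).width A := Finset.sum_nonneg fun i _ => width_nonneg hA0 _
    rw [PTree.phases]
    set t₁ := t + A * (PTree.node p pt m ch).inner A with ht₁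
    set anc' := anc ∪ Finset.univ.image pt
    have hmid : ∀ Q ∈ (List.ofFn fun i : Fin m =>
        (ch i).phases A (childStart A (t₁ + 1000) ch i) anc').flatten,
        t₁ + 1000 ≤ Q.lo ∧ Q.hi ≤ t₁ + (PTree.node p pt m ch).inner A := by
      intro Q hQ
      simp only [List.mem_flatten, List.mem_ofFn, exists_exists_eq_and] at hQ
      obtain ⟨i, hi⟩ := hQ
      obtain ⟨h1, h2, -⟩ := phases_in hA (ch i) _ _ Q hi
      obtain ⟨h4, h5⟩ := childStart_bounds (t := t₁ + 1000) hA0 ch i
      rw [inner_node]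
      constructor <;> linarith
    simp only [List.pairwise_cons, List.pairwise_append, List.mem_cons, List.mem_append,
      List.not_mem_nil, or_false, List.pairwise_flatten, List.mem_ofFn, List.pairwise_ofFn]
    rw [inner_node] at hmid
    refine ⟨?_, ?_, ⟨?_, ?_⟩, ⟨⟨fun b hb => hb.elim, List.Pairwise.nil⟩, ?_⟩⟩
    · rintro Q (rfl | hQ | rfl)
      · exact le_rfl
      · linarith [(hmid Q hQ).1]
      · dsimp; linarith
    · rintro Q (hQ | rfl)
      · linarith [(hmid Q hQ).1]
      · dsimp; rw [inner_node]; linarith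
    · rintro _ ⟨i, rfl⟩
      exact phases_pairwise hA (ch i) _ _
    · intro i j hij P hP Q hQ
      obtain ⟨-, h2, -⟩ := phases_in hA (ch i) _ _ P hP
      obtain ⟨h4, -, -⟩ := phases_in hA (ch j) _ _ Q hQ
      have := childStart_mono (t := t₁ + 1000) hA0 ch (show (i : ℕ) + 1 ≤ j from hij)
      rw [childStart_succ] at this
      linarith
    · rintro Q hQ _ rfl
      dsimp
      rw [inner_node]
      linarith [(hmid Q hQ).2]

lemma phases_ok {A : ℝ} (hA : 1 ≤ A) {N : ℕ} {L : ℝ} : ∀ (T : PTree) (t : ℝ) (anc : Finset E2),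
    TreeGood N T ↑anc → (∀ y ∈ anc, ‖y‖ ≤ 1) → 0 ≤ t → t + T.width A ≤ L →
    (anc.Nonempty → 1000 ≤ t ∧ t + T.width A + 1000 ≤ L) →
    ∀ P ∈ T.phases A t anc, P.OK N L
  | .node p pt m ch, t, anc, hG, hn, ht0, htL, haw, P, hP => by
    classical
    obtain ⟨-, hpt, hcov, hch⟩ := hG
    obtain ⟨b1, b2, b3⟩ := phases_in hA _ t anc P hP
    have hA0 : (0 : ℝ) ≤ A := by linarith
    have hin := inner_ge (A := A) hA0 (.node p pt m ch)
    have hAi : 1000 ≤ A * (PTree.node p pt m ch).inner A := by nlinarith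
    have hw : (PTree.node p pt m ch).width A
        = 2 * (A * (PTree.node p pt m ch).inner A) + (PTree.node p pt m ch).inner A := by
      rw [PTree.width]; ring
    have he := inner_node A p pt m ch
    have hs : 0 ≤ ∑ i, (ch i).width A := Finset.sum_nonneg fun i _ => width_nonneg hA0 _
    have hn' : ∀ y ∈ anc ∪ Finset.univ.image pt, ‖y‖ ≤ 1 := by
      intro y hy
      rcases Finset.mem_union.1 hy with h | h
      · exact hn y h
      · obtain ⟨i, -, rfl⟩ := Finset.mem_image.1 h
        exact (hpt i).2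
    have hcoe : (↑(anc ∪ Finset.univ.image pt) : Set E2) = ↑anc ∪ range pt := by simp
    have hdisj : Disjoint anc (Finset.univ.image pt) := by
      rw [Finset.disjoint_right]
      intro y hy
      obtain ⟨i, -, rfl⟩ := Finset.mem_image.1 hy
      exact fun h => (hpt i).1 h
    have hcov' : Cov N (↑anc ∪ ↑(Finset.univ.image pt)) := by simpa using hcov
    rcases mem_phases.1 hP with rfl | rfl | ⟨i, hi⟩ | rfl
    · refine ⟨b3, by dsimp; linarith, by dsimp; linarith, hn', hdisj, hcov', fun h => ?_,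
        fun _ _ => by dsimp; linarith, fun _ h => by simp at h⟩
      obtain ⟨h1, h2⟩ := haw h
      constructor <;> dsimp <;> linarith
    · refine ⟨b3, by dsimp; linarith, by dsimp; linarith, ?_, Finset.disjoint_empty_right _, ?_,
        fun _ => ?_, fun h => by simp at h, fun h => by simp at h⟩
      · intro y hy; exact hn' y (by simpa using hy)
      · simpa using hcov
      · constructor <;> dsimp <;> linarith
    · obtain ⟨h4, h5⟩ := childStart_bounds (t := t + A * (PTree.node p pt m ch).inner A + 1000)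
        hA0 ch i
      refine phases_ok hA (ch i) _ _ (by rw [hcoe]; exact hch i) hn' (by linarith) (by linarith)
        (fun _ => ⟨by linarith, by linarith⟩) P hi
    · refine ⟨b3, by dsimp; linarith, by dsimp; linarith, hn', hdisj, hcov', fun h => ?_,
        fun _ h => by simp at h, fun _ _ => by dsimp; linarith⟩
      obtain ⟨h1, h2⟩ := haw h
      constructor <;> dsimp <;> linarith

lemma phases_cover {A : ℝ} (hA : 1 ≤ A) : ∀ (T : PTree) (t : ℝ) (anc : Finset E2) (x : ℝ),
    t ≤ x → x ≤ t + T.width A → ∃ P ∈ T.phases A t anc, P.lo ≤ x ∧ x ≤ P.hi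
  | .node p pt m ch, t, anc, x, hx0, hx1 => by
    classical
    set t₁ := t + A * (PTree.node p pt m ch).inner A with ht₁
    rcases le_or_gt x t₁ with h | h
    · exact ⟨_, mem_phases.2 (Or.inl rfl), hx0, h⟩
    rcases le_or_gt x (t₁ + 1000) with h' | h'
    · exact ⟨_, mem_phases.2 (Or.inr (Or.inl rfl)), h.le, h'⟩
    rcases le_or_gt (t₁ + (PTree.node p pt m ch).inner A) x with h'' | h''
    · exact ⟨_, mem_phases.2 (Or.inr (Or.inr (Or.inr rfl))), h'', hx1⟩
    rw [inner_node, ← add_assoc, ← childStart_last] at h''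
    have key : ∀ j, j ≤ m → x ≤ childStart A (t₁ + 1000) ch j →
        ∃ i : Fin m, childStart A (t₁ + 1000) ch i ≤ x ∧
          x ≤ childStart A (t₁ + 1000) ch i + (ch i).width A := by
      intro j
      induction j with
      | zero => intro _ hj; rw [childStart_zero] at hj; linarith
      | succ j ih =>
        intro hjm hj
        rcases le_or_gt x (childStart A (t₁ + 1000) ch j) with h2 | h2
        · exact ih (by omega) h2
        · exact ⟨⟨j, hjm⟩, h2.le, (childStart_succ A _ ch ⟨j, hjm⟩) ▸ hj⟩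
    obtain ⟨i, hi0, hi1⟩ := key m le_rfl h''.le
    obtain ⟨P, hP, hP'⟩ := phases_cover hA (ch i) _ (anc ∪ Finset.univ.image pt) x hi0 hi1
    exact ⟨P, mem_phases.2 (Or.inr (Or.inr (Or.inl ⟨i, hP⟩))), hP'⟩

end Vale.Agent.P208
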