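import Vale.Agent.P208.Phases

/-!
The gadget of a phase layout: it is doubling, its segments have disjoint interiors, and gluing
copies of it on small pieces of its segments gives well-formed nests.
-/

open Metric Set
open scoped Classical

namespace Vale.Agent.P208

lemma Cov.image_scaled {N : ℕ} {S : Set E2} (h : Cov N S) (f : E2 → E2) {c : ℝ} (hc : 0 ≤ c)
    (hf : ∀ x y, dist (f x) (f y) = c * dist x y) : Cov (N ^ 2 + 1) (f '' S) := by
  intro x R hR
  by_cases hne : (f '' S ∩ closedBall x R).Nonempty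
  swap
  · exact ⟨∅, by simp, fun z hz => (hne ⟨z, hz⟩).elim⟩
  obtain ⟨_, ⟨y₀, hy₀, rfl⟩, hy₀x⟩ := hne
  rcases hc.eq_or_lt' with rfl | hc
  · refine ⟨{f y₀}, by simp, ?_⟩
    rintro _ ⟨⟨y, -, rfl⟩, -⟩
    refine mem_iUnion₂.2 ⟨f y₀, by simp, ?_⟩
    rw [mem_closedBall, hf, zero_mul]
    linarith
  obtain ⟨t, ht, hcv⟩ := h.iterate 2 y₀ (show 0 < 2 * R / c by positivity)
  refine ⟨t.image f, Finset.card_image_le.trans (ht.trans (Nat.le_succ _)), ?_⟩
  rintro _ ⟨⟨y, hy, rfl⟩, hyx⟩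
  have hd : dist y y₀ ≤ 2 * R / c := by
    rw [le_div_iff₀' hc, ← hf]
    linarith [dist_triangle_right (f y) (f y₀) x, mem_closedBall.1 hyx, mem_closedBall.1 hy₀x]
  obtain ⟨d, hd', hyd⟩ := mem_iUnion₂.1 (hcv ⟨hy, hd⟩)
  refine mem_iUnion₂.2 ⟨f d, Finset.mem_image_of_mem _ hd', ?_⟩
  rw [mem_closedBall, hf]
  refine (mul_le_mul_of_nonneg_left (mem_closedBall.1 hyd) hc.le).trans_eq ?_
  field_simp

namespace Phase

/-- Covering constant of one slice of a phase. -/
def sliceN (N : ℕ) : ℕ := 1 + ((N ^ 2 + 1) + (N ^ 2 + 1))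

/-- The slice of a phase at parameter `θ`. -/
def slice (P : Phase) (θ : ℝ) : Set E2 :=
  range fun i : P.Idx => P.segL i + θ • (P.segR i - P.segL i)

lemma cov_slice {N : ℕ} {L : ℝ} {P : Phase} (hP : P.OK N L) {θ : ℝ} (h0 : 0 ≤ θ) (h1 : θ ≤ 1) :
    Cov (sliceN N) (P.slice θ) := by
  set t := P.lo + θ * (P.hi - P.lo)
  set τ := P.h₀ + θ * (P.h₁ - P.h₀)
  have hτ : 0 ≤ τ := by
    simp only [τ, h₀, h₁]; split <;> simp <;> linarith
  refine ((cov_singleton (emb t 0 0)).union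
    (((hP.cov.mono subset_union_left le_rfl).image_scaled (emb t 1) zero_le_one
      fun x y => by rw [dist_emb_same, abs_one]).union
    ((hP.cov.mono subset_union_right le_rfl).image_scaled (emb t τ) hτ
      fun x y => by rw [dist_emb_same, abs_of_nonneg hτ]))).mono ?_ le_rfl
  rintro _ ⟨i, rfl⟩
  simp only [seg_point]
  rcases i with _ | a | c
  · refine Or.inl ?_
    simp [hL, hR, pt, t]
  · refine Or.inr (Or.inl ⟨a, a.2, ?_⟩)
    simp [hL, hR, pt, t]
  · exact Or.inr (Or.inr ⟨c, c.2, rfl⟩)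

lemma dist_seg {N : ℕ} {L : ℝ} {P : Phase} (hP : P.OK N L) (i : P.Idx) (θ θ' : ℝ) :
    dist (P.segL i + θ • (P.segR i - P.segL i)) (P.segL i + θ' • (P.segR i - P.segL i))
      ≤ 2 * (|θ - θ'| * (P.hi - P.lo)) := by
  rw [dist_add_left, dist_eq_norm, ← sub_smul, norm_smul, Real.norm_eq_abs]
  have hlong := hP.long
  have h : ‖P.segR i - P.segL i‖ ≤ 2 * (P.hi - P.lo) := by
    have e : P.segR i - P.segL i = emb (P.hi - P.lo) (P.hR i - P.hL i) (P.pt i) := by
      simp only [segL, segR, emb]; module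
    rw [e]
    refine (norm_emb_le (pt_norm hP.norm_le i) _ _).trans ?_
    have : |P.hR i - P.hL i| ≤ 1 := by
      rcases P.hL_mem i with h | h <;> rcases P.hR_mem i with h' | h' <;> rw [h, h'] <;> norm_num
    rw [abs_of_nonneg (by linarith)]
    linarith
  calc _ ≤ |θ - θ'| * (2 * (P.hi - P.lo)) := mul_le_mul_of_nonneg_left h (abs_nonneg _)
    _ = _ := by ring

lemma time_near {P : Phase} {x : E2} {R : ℝ} (i : P.Idx) (θ : ℝ)
    (h : P.segL i + θ • (P.segR i - P.segL i) ∈ closedBall x R) :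
    |P.lo + θ * (P.hi - P.lo) - inner ℝ (bv 0) x| ≤ R := by
  rw [mem_closedBall, dist_eq_norm] at h
  rw [← (emb_inner (P.lo + θ * (P.hi - P.lo)) (P.hL i + θ * (P.hR i - P.hL i)) (P.pt i)).1,
    ← P.seg_point, ← inner_sub_right]
  refine (abs_real_inner_le_norm _ _).trans ?_
  rw [norm_bv, one_mul]
  exact h

/-- The union of the segments of a phase. -/
def set (P : Phase) : Set E2 := ⋃ i, segment ℝ (P.segL i) (P.segR i)

lemma mem_set {P : Phase} {y : E2} (hy : y ∈ P.set) :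
    ∃ i, ∃ θ : ℝ, (0 ≤ θ ∧ θ ≤ 1) ∧ y = P.segL i + θ • (P.segR i - P.segL i) := by
  obtain ⟨i, hi⟩ := mem_iUnion.1 hy
  rw [segment_eq_image'] at hi
  obtain ⟨θ, hθ, rfl⟩ := hi
  exact ⟨i, θ, hθ, rfl⟩

lemma clamp_le {θ v : ℝ} (h0 : 0 ≤ θ) (h1 : θ ≤ 1) : |θ - max 0 (min 1 v)| ≤ |θ - v| := by
  rcases le_total v 0 with h | h
  · rw [min_eq_right (by linarith), max_eq_left h, abs_of_nonneg (by linarith),
      abs_of_nonneg (by linarith)]
    linarith
  rcases le_total v 1 with h' | h'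
  · rw [min_eq_right h', max_eq_right h]
  · rw [min_eq_left h', max_eq_right zero_le_one, abs_of_nonpos (by linarith),
      abs_of_nonpos (by linarith)]
    linarith

lemma exists_grid {R d a : ℝ} (hR : 0 < R) (hd : |d| ≤ R) (h : 0 < a) (lo : ℝ) {θ x₀ : ℝ}
    (hdd : d = lo + θ * a - x₀) :
    ∃ j ∈ Finset.Icc (-16 : ℤ) 16, |θ - (x₀ + j * (R / 16) - lo) / a| * a ≤ R / 32 := by
  have hR' : (0 : ℝ) < R / 16 := by linarith
  set u := d / (R / 16) with hu
  have hu1 : |u| ≤ 16 := by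
    rw [hu, abs_div, abs_of_pos hR', div_le_iff₀ hR']
    linarith
  refine ⟨round u, ?_, ?_⟩
  · have h1 := abs_sub_round u
    rw [abs_le] at hu1 h1
    rw [Finset.mem_Icc]
    constructor
    · by_contra hc
      have : (round u : ℝ) ≤ -17 := by exact_mod_cast (show round u ≤ -17 by omega)
      linarith [h1.2]
    · by_contra hc
      have : (17 : ℝ) ≤ round u := by exact_mod_cast (show 17 ≤ round u by omega)
      linarith [h1.1]
  · have e : (θ - (x₀ + round u * (R / 16) - lo) / a) * a = (u - round u) * (R / 16) := by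
      rw [sub_mul, div_mul_cancel₀ _ h.ne', sub_mul u, hu, div_mul_cancel₀ _ hR'.ne', hdd]
      ring
    calc _ = |u - round u| * (R / 16) := by
          rw [← abs_of_pos h, ← abs_mul, abs_of_pos h, e, abs_mul, abs_of_pos hR']
      _ ≤ 1 / 2 * (R / 16) := mul_le_mul_of_nonneg_right (abs_sub_round u) hR'.le
      _ = R / 32 := by ring

lemma cover_ball {N : ℕ} {L : ℝ} {P : Phase} (hP : P.OK N L) (x : E2) {R : ℝ} (hR : 0 < R) :
    ∃ t : Finset E2, t.card ≤ 33 * sliceN N ^ 3 ∧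
      P.set ∩ closedBall x R ⊆ ⋃ c ∈ t, closedBall c (R / 2) := by
  have hd : 0 < P.hi - P.lo := by linarith [hP.long]
  set x₀ := inner ℝ (bv 0) x
  let θj : ℤ → ℝ := fun j => max 0 (min 1 ((x₀ + j * (R / 16) - P.lo) / (P.hi - P.lo)))
  have hθj : ∀ j, 0 ≤ θj j ∧ θj j ≤ 1 := fun j =>
    ⟨le_max_left _ _, max_le zero_le_one (min_le_left _ _)⟩
  choose t ht hcv using fun j : ℤ =>
    (cov_slice hP (hθj j).1 (hθj j).2).iterate 3 x (show (0 : ℝ) < 2 * R by linarith)
  refine ⟨(Finset.Icc (-16 : ℤ) 16).biUnion t, ?_, ?_⟩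
  · exact Finset.card_biUnion_le.trans
      ((Finset.sum_le_card_nsmul _ _ _ fun j _ => ht j).trans (by simp))
  rintro y ⟨hy, hyx⟩
  obtain ⟨i, θ, ⟨h0, h1⟩, rfl⟩ := mem_set hy
  obtain ⟨j, hmem, hj⟩ := exists_grid hR (time_near i θ hyx) hd P.lo rfl
  have hnear : |θ - θj j| * (P.hi - P.lo) ≤ R / 32 :=
    (mul_le_mul_of_nonneg_right (clamp_le h0 h1) hd.le).trans hj
  have hd' := dist_seg hP i θ (θj j)
  obtain ⟨c, hc, hzc⟩ := mem_iUnion₂.1 (hcv j (a := P.segL i + θj j • (P.segR i - P.segL i))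
    ⟨⟨i, rfl⟩, by
      rw [mem_closedBall] at hyx ⊢
      linarith [dist_triangle_left (P.segL i + θj j • (P.segR i - P.segL i)) x
        (P.segL i + θ • (P.segR i - P.segL i))]⟩)
  refine mem_iUnion₂.2 ⟨c, Finset.mem_biUnion.2 ⟨j, hmem, hc⟩, ?_⟩
  rw [mem_closedBall] at hzc ⊢
  linarith [dist_triangle (P.segL i + θ • (P.segR i - P.segL i))
    (P.segL i + θj j • (P.segR i - P.segL i)) c]

lemma set_near_axis {N : ℕ} {L : ℝ} {P : Phase} (hP : P.OK N L) {y : E2} (hy : y ∈ P.set) :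
    ∃ t, 0 ≤ t ∧ t ≤ L ∧ dist y (t • bv 0) ≤ 2 := by
  obtain ⟨i, θ, ⟨h0, h1⟩, rfl⟩ := mem_set hy
  have hd : 0 ≤ P.hi - P.lo := by linarith [hP.long]
  refine ⟨P.lo + θ * (P.hi - P.lo), ?_, ?_, ?_⟩
  · nlinarith [hP.lo_nonneg]
  · nlinarith [hP.hi_le]
  · rw [seg_point, ← emb_zero_height (P.lo + θ * (P.hi - P.lo)) (P.pt i), dist_eq_norm]
    have e : ∀ t τ c, emb t τ c - emb t 0 c = emb 0 τ c := fun t τ c => by
      simp only [emb]; module
    rw [e]
    refine (norm_emb_le (pt_norm hP.norm_le i) _ _).trans ?_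
    obtain ⟨h2, h3⟩ := P.height_bounds i h0 h1
    rw [abs_zero, abs_of_nonneg h2]
    linarith

lemma inside {N : ℕ} {L : ℝ} {P : Phase} (hP : P.OK N L) (i : P.Idx) {θ : ℝ} (h0 : 0 ≤ θ)
    (h1 : θ ≤ 1) :
    let t := P.lo + θ * (P.hi - P.lo)
    let τ := P.hL i + θ * (P.hR i - P.hL i)
    τ ^ 2 * (1 + ‖P.pt i‖ ^ 2) ≤ t * (L - t) ∧
      (0 < θ → θ < 1 → τ ^ 2 * (1 + ‖P.pt i‖ ^ 2) < t * (L - t)) := by
  intro t τ
  obtain ⟨hlong, hlo, hhi, hnl, -, -, haway, hup, hdown⟩ := hP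
  have hθd : θ * 1000 ≤ θ * (P.hi - P.lo) := mul_le_mul_of_nonneg_left (by linarith) h0
  have hθd' : (1 - θ) * 1000 ≤ (1 - θ) * (P.hi - P.lo) :=
    mul_le_mul_of_nonneg_left (by linarith) (by linarith)
  have ht : P.lo + θ * 1000 ≤ t := by simp only [t]; linarith
  have ht' : t + (1 - θ) * 1000 ≤ P.hi := by simp only [t]; linarith
  rcases i with _ | a | c
  · simp only [τ, hL, hR, sub_zero, mul_zero, add_zero, ne_eq, OfNat.ofNat_ne_zero,
      not_false_eq_true, zero_pow, zero_mul]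
    exact ⟨mul_nonneg (by linarith) (by linarith), fun h h' => mul_pos (by linarith) (by linarith)⟩
  · obtain ⟨h2, h3⟩ := haway ⟨a, a.2⟩
    have hn : ‖P.pt (some (.inl a))‖ ≤ 1 := pt_norm hnl _
    simp only [τ, hL, hR, sub_self, mul_zero, add_zero, one_pow, one_mul]
    have h4 : (1000 : ℝ) * 1000 ≤ t * (L - t) :=
      mul_le_mul (by linarith) (by linarith) (by norm_num) (by linarith)
    have h5 : ‖P.pt (some (.inl a))‖ ^ 2 ≤ 1 := pow_le_one₀ (norm_nonneg _) hn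
    exact ⟨by linarith, fun _ _ => by linarith⟩
  · have hn : ‖P.pt (some (.inr c))‖ ≤ 1 := pt_norm hnl _
    have h5 : ‖P.pt (some (.inr c))‖ ^ 2 ≤ 1 := pow_le_one₀ (norm_nonneg _) hn
    simp only [τ, hL, hR, h₀, h₁]
    cases hu : P.up with
    | true =>
      have h6 : θ * 1000 * 1000 ≤ t * (L - t) :=
        mul_le_mul (by linarith) (by linarith [hup ⟨c, c.2⟩ hu]) (by norm_num) (by linarith)
      simp only [if_true, sub_zero, mul_one, zero_add]
      have h7 : θ ^ 2 * (1 + ‖P.pt (some (.inr c))‖ ^ 2) ≤ θ * 2 :=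
        mul_le_mul (pow_le_of_le_one h0 h1 two_ne_zero) (by linarith) (by positivity) h0
      exact ⟨by linarith, fun h _ => by linarith⟩
    | false =>
      have h6 : 1000 * ((1 - θ) * 1000) ≤ t * (L - t) :=
        mul_le_mul (by linarith [hdown ⟨c, c.2⟩ hu]) (by linarith) (by linarith)
          (by linarith [hdown ⟨c, c.2⟩ hu])
      simp only [Bool.false_eq_true, if_false, zero_sub, mul_neg, mul_one, ← sub_eq_add_neg]
      have h7 : (1 - θ) ^ 2 * (1 + ‖P.pt (some (.inr c))‖ ^ 2) ≤ (1 - θ) * 2 :=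
        mul_le_mul (pow_le_of_le_one (by linarith) (by linarith) two_ne_zero) (by linarith)
          (by positivity) (by linarith)
      exact ⟨by linarith, fun _ h => by linarith⟩

end Phase

/-- A layout: phases covering `[0, L]`, in time order. -/
structure Layout (N : ℕ) where
  /-- total duration -/
  L : ℝ
  pos : 0 < L
  /-- the phases -/
  ps : List Phase
  ok : ∀ P ∈ ps, P.OK N L
  ord : ps.Pairwise fun P Q => P.hi ≤ Q.lo
  cover : ∀ x, 0 ≤ x → x ≤ L → ∃ P ∈ ps, P.lo ≤ x ∧ x ≤ P.hi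

namespace Layout

variable {N : ℕ} (Y : Layout N)

/-- The `i`-th phase. -/
def phase (i : Fin Y.ps.length) : Phase := Y.ps.get i

lemma phase_ok (i : Fin Y.ps.length) : (Y.phase i).OK N Y.L := Y.ok _ (List.get_mem _ _)

lemma phase_ord {i j : Fin Y.ps.length} (h : i < j) : (Y.phase i).hi ≤ (Y.phase j).lo :=
  List.pairwise_iff_get.1 Y.ord i j h

/-- Index of all segments. -/
abbrev Seg := (i : Fin Y.ps.length) × (Y.phase i).Idx

/-- The raw union of all segments. -/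
def raw : Set E2 := ⋃ i, (Y.phase i).set

/-- Normalisation of time to `[-1, 1]`. -/
noncomputable def nrm : Sim :=
  ⟨-bv 0, 2 / Y.L, div_pos two_pos Y.pos, LinearIsometryEquiv.refl ℝ E2⟩

/-- Start of a normalised segment. -/
noncomputable def gL (g : Y.Seg) : E2 := Y.nrm.app ((Y.phase g.1).segL g.2)

/-- End of a normalised segment. -/
noncomputable def gR (g : Y.Seg) : E2 := Y.nrm.app ((Y.phase g.1).segR g.2)

/-- The gadget. -/
def base : Set E2 := ⋃ g : Y.Seg, segment ℝ (Y.gL g) (Y.gR g)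

lemma base_eq : Y.base = Y.nrm.app '' Y.raw := by
  simp only [base, raw, Phase.set, gL, gR, ← Sim.image_segment, image_iUnion]
  exact iUnion_sigma (fun g : Y.Seg =>
    Y.nrm.app '' segment ℝ ((Y.phase g.1).segL g.2) ((Y.phase g.1).segR g.2))

/-- Covering constant of a layout. -/
def N₂ (N : ℕ) : ℕ := 5 ^ 3 + 2 * (33 * Phase.sliceN N ^ 3)

lemma cov_raw : Cov (N₂ N) Y.raw := by
  intro x R hR
  rcases le_or_gt 250 R with hbig | hsmall
  · obtain ⟨t, ht, hcv⟩ := (cov_segment ((0 : ℝ) • bv 0) (Y.L • bv 0)).iterate 3 x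
      (show (0 : ℝ) < 3 / 2 * R by linarith)
    refine ⟨t, ht.trans (Nat.le_add_right _ _), fun y ⟨hy, hyx⟩ => ?_⟩
    obtain ⟨i, hi⟩ := mem_iUnion.1 hy
    obtain ⟨s, hs0, hsL, hys⟩ := Phase.set_near_axis (Y.phase_ok i) hi
    have hmem : s • bv 0 ∈ segment ℝ ((0 : ℝ) • bv 0) (Y.L • bv 0) := by
      rw [segment_eq_image']
      refine ⟨s / Y.L, ⟨div_nonneg hs0 Y.pos.le, (div_le_one Y.pos).2 hsL⟩, ?_⟩
      simp [smul_smul, div_mul_cancel₀ _ Y.pos.ne']
    rw [mem_closedBall] at hyx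
    obtain ⟨c, hc, hsc⟩ := mem_iUnion₂.1 (hcv ⟨hmem, by
      rw [mem_closedBall]
      linarith [dist_triangle (s • bv 0) y x, dist_comm y (s • bv 0)]⟩)
    refine mem_iUnion₂.2 ⟨c, hc, ?_⟩
    rw [mem_closedBall] at hsc ⊢
    norm_num at hsc
    linarith [dist_triangle y (s • bv 0) c]
  · choose t ht hcv using fun i => Phase.cover_ball (Y.phase_ok i) x hR
    let S := Finset.univ.filter fun i => ((Y.phase i).set ∩ closedBall x R).Nonempty
    have hS : S.card ≤ 2 := by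
      rcases S.eq_empty_or_nonempty with he | hne
      · simp [he]
      refine le_trans (Finset.card_le_card (t := {S.min' hne, S.max' hne}) fun j hj => ?_)
        Finset.card_le_two
      simp only [Finset.mem_insert, Finset.mem_singleton]
      by_contra hc
      push Not at hc
      have hlt1 : S.min' hne < j := lt_of_le_of_ne (S.min'_le j hj) (Ne.symm hc.1)
      have hlt2 : j < S.max' hne := lt_of_le_of_ne (S.le_max' j hj) hc.2
      obtain ⟨y, hy, hyx⟩ := (Finset.mem_filter.1 (S.min'_mem hne)).2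
      obtain ⟨z, hz, hzx⟩ := (Finset.mem_filter.1 (S.max'_mem hne)).2
      obtain ⟨i, θ, ⟨hθ0, hθ1⟩, rfl⟩ := Phase.mem_set hy
      obtain ⟨l, η, ⟨hη0, hη1⟩, rfl⟩ := Phase.mem_set hz
      have e1 := abs_le.1 (Phase.time_near i θ hyx)
      have e2 := abs_le.1 (Phase.time_near l η hzx)
      have o1 := Y.phase_ord hlt1
      have o2 := Y.phase_ord hlt2
      have l1 := (Y.phase_ok (S.min' hne)).long
      have l2 := (Y.phase_ok j).long
      have l3 := (Y.phase_ok (S.max' hne)).long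
      have m1 := mul_le_mul_of_nonneg_right hθ1
        (show 0 ≤ (Y.phase (S.min' hne)).hi - (Y.phase (S.min' hne)).lo by linarith)
      have m2 := mul_nonneg hη0
        (show 0 ≤ (Y.phase (S.max' hne)).hi - (Y.phase (S.max' hne)).lo by linarith)
      linarith
    refine ⟨S.biUnion t, ?_, fun y ⟨hy, hyx⟩ => ?_⟩
    · refine Finset.card_biUnion_le.trans ((Finset.sum_le_card_nsmul _ _ _ fun i _ => ht i).trans ?_)
      rw [smul_eq_mul]
      exact (Nat.mul_le_mul_right _ hS).trans (Nat.le_add_left _ _)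
    · obtain ⟨i, hi⟩ := mem_iUnion.1 hy
      obtain ⟨c, hc, hyc⟩ := mem_iUnion₂.1 (hcv i ⟨hi, hyx⟩)
      exact mem_iUnion₂.2
        ⟨c, Finset.mem_biUnion.2 ⟨i, Finset.mem_filter.2 ⟨Finset.mem_univ _, y, hi, hyx⟩, hc⟩, hyc⟩

lemma cov_base : Cov (N₂ N) Y.base := by
  rw [base_eq]
  exact Y.cov_raw.image Y.nrm

lemma norm_nrm (t τ : ℝ) (c : E2) :
    ‖Y.nrm.app (emb t τ c)‖ = 2 / Y.L * ‖emb (t - Y.L / 2) τ c‖ := by
  have h := Y.pos
  have e : Y.nrm.app (emb t τ c) = (2 / Y.L) • emb (t - Y.L / 2) τ c := by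
    simp only [nrm, Sim.app, emb, LinearIsometryEquiv.coe_refl, id_eq]
    match_scalars <;> field_simp <;> ring
  rw [e, norm_smul, Real.norm_of_nonneg (div_nonneg two_pos.le h.le)]

lemma emb_norm_bound {L t τ : ℝ} {c : E2} {q : Prop} {q' : Prop} (h : 0 < L)
    (hle : τ ^ 2 * (1 + ‖c‖ ^ 2) ≤ t * (L - t))
    (hlt : q → q' → τ ^ 2 * (1 + ‖c‖ ^ 2) < t * (L - t)) :
    2 / L * ‖emb (t - L / 2) τ c‖ ≤ 1 ∧ (q → q' → 2 / L * ‖emb (t - L / 2) τ c‖ < 1) := by
  have hsq := norm_emb_sq (t - L / 2) τ c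
  have e : (L / 2) ^ 2 = (t - L / 2) ^ 2 + t * (L - t) := by ring
  rw [div_mul_eq_mul_div, div_le_one h, div_lt_one h]
  constructor
  · have := (abs_le_of_sq_le_sq' (a := ‖emb (t - L / 2) τ c‖) (b := L / 2) (by linarith)
      (by linarith)).2
    linarith
  · intro a b
    have := (abs_lt_of_sq_lt_sq' (a := ‖emb (t - L / 2) τ c‖) (b := L / 2)
      (by linarith [hlt a b]) (by linarith)).2
    linarith

lemma norm_point (g : Y.Seg) {θ : ℝ} (h0 : 0 ≤ θ) (h1 : θ ≤ 1) :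
    ‖Y.gL g + θ • (Y.gR g - Y.gL g)‖ ≤ 1 ∧
      (0 < θ → θ < 1 → ‖Y.gL g + θ • (Y.gR g - Y.gL g)‖ < 1) := by
  rw [gL, gR, ← Sim.app_affine, Phase.seg_point, norm_nrm]
  have h := Y.pos
  obtain ⟨hle, hlt⟩ := Phase.inside (Y.phase_ok g.1) g.2 h0 h1
  generalize hT : (Y.phase g.1).lo + θ * ((Y.phase g.1).hi - (Y.phase g.1).lo) = t at hle hlt ⊢
  generalize hH : (Y.phase g.1).hL g.2 + θ * ((Y.phase g.1).hR g.2 - (Y.phase g.1).hL g.2) = τ
    at hle hlt ⊢
  generalize hC : (Y.phase g.1).pt g.2 = c at hle hlt ⊢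
  exact emb_norm_bound h hle fun a b => hlt a b

lemma base_subset : Y.base ⊆ closedBall 0 1 := by
  refine iUnion_subset fun g => ?_
  rw [segment_eq_image']
  rintro _ ⟨θ, ⟨h0, h1⟩, rfl⟩
  simpa using (Y.norm_point g h0 h1).1

lemma axis_subset : axisSeg ⊆ Y.base := by
  rw [axisSeg, segment_eq_image', base_eq]
  rintro _ ⟨θ, ⟨h0, h1⟩, rfl⟩
  have hL := Y.pos
  obtain ⟨P, hP, hlo, hhi⟩ := Y.cover (θ * Y.L) (by positivity) (by nlinarith)
  obtain ⟨i, hi⟩ := List.get_of_mem hP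
  refine ⟨(θ * Y.L) • bv 0, mem_iUnion.2 ⟨i, mem_iUnion.2 ⟨none, ?_⟩⟩, ?_⟩
  · have hPi : Y.phase i = P := hi
    rw [segment_eq_image']
    have hd : 0 < (Y.phase i).hi - (Y.phase i).lo := by linarith [(Y.phase_ok i).long]
    refine ⟨(θ * Y.L - (Y.phase i).lo) / ((Y.phase i).hi - (Y.phase i).lo),
      ⟨div_nonneg (by rw [hPi]; linarith) hd.le, (div_le_one hd).2 (by rw [hPi]; linarith)⟩, ?_⟩
    simp only [Phase.seg_point]
    simp [Phase.hL, Phase.hR, emb_zero_height, div_mul_cancel₀ _ hd.ne']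
  · simp only [nrm, Sim.app, LinearIsometryEquiv.coe_refl, id_eq, smul_smul]
    match_scalars
    field_simp
    ring

lemma seg_ne (g : Y.Seg) : Y.gL g ≠ Y.gR g := by
  intro h
  have := emb_time (Y.nrm.app_injective h)
  linarith [(Y.phase_ok g.1).long]

lemma seg_disjoint {κ : ℝ} (hκ : 0 < κ) {g h : Y.Seg} (hgh : g ≠ h) :
    Disjoint (core κ (Y.gL g) (Y.gR g)) (segment ℝ (Y.gL h) (Y.gR h)) := by
  rw [disjoint_left]
  rintro _ ⟨θ, ⟨h0, h1⟩, rfl⟩ hx
  rw [segment_eq_image'] at hx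
  obtain ⟨η, ⟨hη0, hη1⟩, he⟩ := hx
  simp only [gL, gR, ← Sim.app_affine, Phase.seg_point] at he
  have he := Y.nrm.app_injective he
  obtain ⟨i, a⟩ := g
  obtain ⟨j, b⟩ := h
  have ht := emb_time he
  simp only at ht
  have hi := (Y.phase_ok i).long
  have hj := (Y.phase_ok j).long
  have hθ0 : 0 < θ := by linarith
  have hθ1 : θ < 1 := by linarith
  have m1 := mul_pos hθ0 (show 0 < (Y.phase i).hi - (Y.phase i).lo by linarith)
  have m2 := mul_pos (show 0 < 1 - θ by linarith)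
    (show 0 < (Y.phase i).hi - (Y.phase i).lo by linarith)
  have m3 := mul_nonneg hη0 (show 0 ≤ (Y.phase j).hi - (Y.phase j).lo by linarith)
  have m4 := mul_nonneg (show 0 ≤ 1 - η by linarith)
    (show 0 ≤ (Y.phase j).hi - (Y.phase j).lo by linarith)
  rcases lt_trichotomy i j with hij | rfl | hij
  · linarith [Y.phase_ord hij]
  swap
  · linarith [Y.phase_ord hij]
  have hd : 0 < (Y.phase i).hi - (Y.phase i).lo := by linarith
  have hη : η = θ := mul_right_cancel₀ hd.ne' (by linarith)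
  subst hη
  have hab : b ≠ a := fun hba => hgh (by rw [hba])
  have hh := emb_height he
  have hc := emb_trans he
  have hdis := Finset.disjoint_left.1 (Y.phase_ok i).disj
  simp only at hh hc hab
  rcases a with _ | a | a <;> rcases b with _ | b | b <;>
    simp only [Phase.hL, Phase.hR, Phase.h₀, Phase.h₁, Phase.pt] at hh hc
  · exact hab rfl
  all_goals cases hu : (Y.phase i).up <;> simp [hu] at hh hc
  all_goals first
    | linarith
    | exact hab (congrArg (fun z => some (Sum.inl z)) (Subtype.ext hc.symm))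
    | exact hab (congrArg (fun z => some (Sum.inl z)) (Subtype.ext hc))
    | exact hab (congrArg (fun z => some (Sum.inl z)) hc)
    | exact hab (congrArg (fun z => some (Sum.inr z)) (hc (by linarith)))
    | exact hab (congrArg (fun z => some (Sum.inr z)) (hc (by linarith)).symm)

/-- The subdivision points. -/
noncomputable def pieceL (κ : ℝ) (K : Y.Seg → ℕ) (x : (g : Y.Seg) × Fin (K g)) : E2 :=
  mark κ (Y.gL x.1) (Y.gR x.1) (K x.1) x.2

/-- The right ends of the pieces. -/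
noncomputable def pieceR (κ : ℝ) (K : Y.Seg → ℕ) (x : (g : Y.Seg) × Fin (K g)) : E2 :=
  mark κ (Y.gL x.1) (Y.gR x.1) (K x.1) (x.2 + 1)

/-- The similarity onto a piece. -/
noncomputable def piece (κ : ℝ) (K : Y.Seg → ℕ) (x : (g : Y.Seg) × Fin (K g)) : Sim :=
  if h : Y.pieceL κ K x ≠ Y.pieceR κ K x then Sim.place _ _ h else Sim.one

/-- The recursive construction. -/
noncomputable def nest (κ : ℝ) (K : Y.Seg → ℕ) : ℕ → Nest
  | 0 => .node axisSeg 0 1 0 Fin.elim0
  | r + 1 => .node Y.base 0 1 (Fintype.card ((g : Y.Seg) × Fin (K g))) fun i =>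
      (nest κ K r).map (Y.piece κ K ((Fintype.equivFin _).symm i))

lemma exists_nest {κ : ℝ} (hκ : 0 < κ) (hκ' : κ < 1 / 2) :
    ∃ K : Y.Seg → ℕ, (∀ g, 0 < K g) ∧ (∀ x, Y.pieceL κ K x ≠ Y.pieceR κ K x) ∧
      ∀ r, (Y.nest κ K r).WF (N₂ N) ∧ (Y.nest κ K r).center = 0 ∧ (Y.nest κ K r).radius = 1 ∧
        axisSeg ⊆ (Y.nest κ K r).base := by
  obtain ⟨K, hK, hK'⟩ := exists_pieces Y.gL Y.gR hκ hκ' ∅ isClosed_empty Y.seg_ne
    (fun g => by
      rintro _ ⟨θ, ⟨h0, h1⟩, rfl⟩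
      simpa using (Y.norm_point g (by linarith) (by linarith)).2 (by linarith) (by linarith))
    (fun g => disjoint_empty _) (fun g h hgh => Y.seg_disjoint hκ hgh)
  have hne : ∀ x, Y.pieceL κ K x ≠ Y.pieceR κ K x := fun x => (hK' x.1 x.2 x.2.2).1
  refine ⟨K, hK, hne, fun r => ?_⟩
  induction r with
  | zero =>
    refine ⟨⟨one_pos, axisSeg_subset, (cov_segment _ _).mono subset_rfl ?_,
      fun i => i.elim0, fun i => i.elim0⟩, rfl, rfl, subset_rfl⟩
    unfold N₂; omega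
  | succ r ih =>
    obtain ⟨hWF, hc, hr, hax⟩ := ih
    have hpiece : ∀ x, Y.piece κ K x = Sim.place _ _ (hne x) := fun x => dif_pos (hne x)
    have hcen : ∀ x, ((Y.nest κ K r).map (Y.piece κ K x)).center
        = (2 : ℝ)⁻¹ • (Y.pieceL κ K x + Y.pieceR κ K x) := fun x => by
      rw [Nest.map_center, hc, hpiece]; simp [Sim.app, Sim.place]
    have hrad : ∀ x, ((Y.nest κ K r).map (Y.piece κ K x)).radius
        = ‖Y.pieceR κ K x - Y.pieceL κ K x‖ / 2 := fun x => by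
      rw [Nest.map_radius, hr, hpiece]; simp [Sim.place]
    refine ⟨⟨one_pos, Y.base_subset, Y.cov_base, fun i => ?_, fun i j => ?_⟩, rfl, rfl,
      Y.axis_subset⟩
    · set x := (Fintype.equivFin ((g : Y.Seg) × Fin (K g))).symm i
      obtain ⟨-, hmid, hin, hiso, -⟩ := hK' x.1 x.2 x.2.2
      refine ⟨?_, ?_, ?_, Nest.map_WF _ hWF⟩
      · rw [hcen]; exact mem_iUnion.2 ⟨x.1, hmid⟩
      · rw [hcen, hrad]; exact hin
      · rw [hcen, hrad]
        refine (inter_subset_inter_left _ ?_).trans (hiso.trans ?_)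
        · exact subset_union_right
        · rw [Nest.map_base, hpiece]
          exact (le_of_eq (place_axisSeg _ _ (hne x)).symm).trans (image_mono hax)
    · obtain ⟨-, -, -, -, hsib⟩ := hK' _ _ ((Fintype.equivFin ((g : Y.Seg) × Fin (K g))).symm i).2.2
      obtain ⟨hs1, hs2⟩ := hsib _ _ ((Fintype.equivFin ((g : Y.Seg) × Fin (K g))).symm j).2.2
      simp only [hrad, hcen]
      refine ⟨hs1, fun hij => hs2 fun ⟨h1, h2⟩ => hij ?_⟩
      apply (Fintype.equivFin ((g : Y.Seg) × Fin (K g))).symm.injective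
      generalize (Fintype.equivFin ((g : Y.Seg) × Fin (K g))).symm i = a at h1 h2
      generalize (Fintype.equivFin ((g : Y.Seg) × Fin (K g))).symm j = b at h1 h2
      obtain ⟨a1, a2⟩ := a
      obtain ⟨b1, b2⟩ := b
      simp only at h1 h2
      subst h1
      rw [Fin.ext h2]

end Layout

/-- The layout of a tree. -/
noncomputable def PTree.layout {N : ℕ} (T : PTree) {A : ℝ} (hA : 1 ≤ A) (hT : TreeGood N T ∅) :
    Layout N where
  L := T.width A
  pos := mul_pos (by linarith) (by linarith [inner_ge (show (0:ℝ) ≤ A by linarith) T])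
  ps := T.phases A 0 ∅
  ok := phases_ok hA T 0 ∅ (by simpa using hT) (by simp) le_rfl (by simp) (by simp)
  ord := phases_pairwise hA T 0 ∅
  cover := fun x h0 h1 => phases_cover hA T 0 ∅ x h0 (by simpa using h1)

end Vale.Agent.P208
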