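import Vale.Agent.P208.TreeGeom

open Metric Set

namespace Vale.Agent.P208

open Stack

namespace TreeCon

/-- An increasing pair of indices. -/
abbrev Pair (M : ℕ) := {p : Fin M × Fin M // p.1 < p.2}

variable {M : ℕ} (ρ κ : ℝ)

/-- The two indices of a pair. -/
def idx (p : Pair M) : Fin 2 → ℕ := ![p.1.1, p.1.2]

/-- Starting points of the eight segments of a pair. -/
noncomputable def segL (p : Pair M) (g : Fin 2 × Fin 4) : E2 := st ρ (idx p g.1) g.2

/-- End points of the eight segments of a pair. -/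
noncomputable def segR (p : Pair M) (g : Fin 2 × Fin 4) : E2 := en ρ (idx p g.1) g.2

/-- The axis with the stack. -/
def core0 (M : ℕ) : Set E2 := axisSeg ∪ range fun i : Fin M => P ρ i

/-- The base set of a pair. -/
def base (p : Pair M) : Set E2 :=
  core0 ρ M ∪ ⋃ g, segment ℝ (segL ρ p g) (segR ρ p g)

variable (K : Pair M → Fin 2 × Fin 4 → ℕ)

/-- A piece of one of the segments of a pair. -/
abbrev Piece (p : Pair M) := (g : Fin 2 × Fin 4) × Fin (K p g)

/-- Left end of a piece. -/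
noncomputable def pieceL (p : Pair M) (x : Piece K p) : E2 :=
  mark κ (segL ρ p x.1) (segR ρ p x.1) (K p x.1) x.2

/-- Right end of a piece. -/
noncomputable def pieceR (p : Pair M) (x : Piece K p) : E2 :=
  mark κ (segL ρ p x.1) (segR ρ p x.1) (K p x.1) (x.2 + 1)

/-- The similarity onto a piece. -/
noncomputable def piece (p : Pair M) (x : Piece K p) : Sim :=
  open Classical in
  if h : pieceL ρ κ K p x ≠ pieceR ρ κ K p x then Sim.place _ _ h else Sim.one

/-- The stack as a finite set. -/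
noncomputable def stackFin (M : ℕ) : Finset E2 :=
  open Classical in Finset.univ.image fun i : Fin M => P ρ i

/-- The points added by a pair. -/
noncomputable def newPts (p : Pair M) : Finset E2 :=
  open Classical in
  (Finset.univ.biUnion fun g : Fin 2 × Fin 4 =>
      {segL ρ p g, segR ρ p g} ∪
        (Finset.range (K p g + 1)).image (mark κ (segL ρ p g) (segR ρ p g) (K p g))) \
    ({-bv 0, bv 0} ∪ stackFin ρ M)

/-- The tree of depth `r` placed by `g`. -/
noncomputable def tree : ℕ → Sim → PTree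
  | 0, _ => .node 0 Fin.elim0 0 Fin.elim0
  | r + 1, g =>
    open Classical in
    PTree.ofFinset ((stackFin ρ M).image g.app) (Fintype.card (Pair M)) fun i =>
      let p := (Fintype.equivFin (Pair M)).symm i
      PTree.ofFinset ((newPts ρ κ K p).image g.app) (Fintype.card (Piece K p)) fun j =>
        tree r (g.comp (piece ρ κ K p ((Fintype.equivFin (Piece K p)).symm j)))

/-- The nests that contain single branches. -/
def IsPath : ℕ → Nest → Prop
  | 0, T => T = .node (core0 ρ M) 0 1 0 Fin.elim0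
  | r + 1, T => T = .node (core0 ρ M) 0 1 0 Fin.elim0 ∨
      ∃ p : Pair M, T = .node (base ρ p) 0 1 0 Fin.elim0 ∨
        ∃ x T', IsPath r T' ∧
          T = .node (base ρ p) 0 1 1 fun _ => T'.map (piece ρ κ K p x)

/-- The covering constant of one node. -/
def N₀ : ℕ := 5 + 13 + Fintype.card (Fin 2 × Fin 4) * 5

/-- The covering constant of a branch. -/
def N₁ : ℕ := N₀ ^ 3 + N₀ ^ 10 * N₀ ^ 3

/-- The properties of the parameters used in the construction. -/
structure Params : Prop where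
  hρ : 0 < ρ
  hpos : ∀ i : Fin M, pos ρ i < 1 / 2
  hκ : 0 < κ
  hκ' : κ < 1 / 2
  hK : ∀ p g, 0 < K p g
  ne : ∀ p x, pieceL ρ κ K p x ≠ pieceR ρ κ K p x
  mid : ∀ p x, (2 : ℝ)⁻¹ • (pieceL ρ κ K p x + pieceR ρ κ K p x) ∈ base ρ p
  inside : ∀ p x, dist ((2 : ℝ)⁻¹ • (pieceL ρ κ K p x + pieceR ρ κ K p x)) 0
      + 64 * (‖pieceR ρ κ K p x - pieceL ρ κ K p x‖ / 2) < 1
  isol : ∀ p x, base ρ p ∩ closedBall ((2 : ℝ)⁻¹ • (pieceL ρ κ K p x + pieceR ρ κ K p x))
      (‖pieceR ρ κ K p x - pieceL ρ κ K p x‖ / 2)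
      ⊆ segment ℝ (pieceL ρ κ K p x) (pieceR ρ κ K p x)

variable {ρ κ} {K}

lemma idx_lt {p : Pair M} (a : Fin 2) : ∃ i : Fin M, idx p a = i := by
  fin_cases a
  · exact ⟨p.1.1, rfl⟩
  · exact ⟨p.1.2, rfl⟩

lemma idx_injective (p : Pair M) : Function.Injective (idx p) := by
  have h : (p.1.1 : ℕ) < p.1.2 := p.2
  intro a b hab
  fin_cases a <;> fin_cases b <;> simp [idx] at hab ⊢ <;> omega

lemma isClosed_core0 : IsClosed (core0 ρ M) := by
  refine IsClosed.union ?_ (finite_range _).isClosed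
  rw [axisSeg, segment_eq_image']
  exact (isCompact_Icc.image (by fun_prop)).isClosed

lemma exists_params (hρ : 0 < ρ) (hpos : ∀ i : Fin M, pos ρ i < 1 / 2) (hκ : 0 < κ)
    (hκ' : κ < 1 / 2) : ∃ K : Pair M → Fin 2 × Fin 4 → ℕ, Params ρ κ K := by
  have key := fun p : Pair M => exists_pieces (segL ρ p) (segR ρ p) hκ hκ' (core0 ρ M)
    isClosed_core0 (fun g h => ?_) (fun g => ?_) (fun g => ?_) (fun g g' hgg => ?_)
  rotate_left
  · obtain ⟨i, hi⟩ := idx_lt (p := p) g.1
    have hs := seg_self_pos hρ (idx p g.1) g.2 (show (0 : ℝ) < 1 / 2 by norm_num) (by norm_num)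
    simp only [segL, segR] at h
    rw [seg_self] at hs
    have := congr_arg (fun z : E2 => z 0) h
    have hp := pos_pos hρ (idx p g.1)
    have hp1 : pos ρ (idx p g.1) < 1 / 2 := by rw [hi]; exact hpos i
    obtain ⟨a, c⟩ := g
    have hs0 := seg_zero (ρ := ρ) (idx p a) c 0
    have hs1 := seg_zero (ρ := ρ) (idx p a) c 1
    simp only [zero_smul, add_zero] at hs0
    simp only [one_smul, add_sub_cancel] at hs1
    simp only at h
    rw [h, hs1] at hs0
    fin_cases c <;> simp at hs0 hp hp1 <;> linarith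
  · obtain ⟨i, hi⟩ := idx_lt (p := p) g.1
    exact core_ball hρ hκ (by rw [hi]; exact hpos i) g.2
  · refine disjoint_union_right.2 ⟨disjoint_axis hρ hκ _ g.2, ?_⟩
    rw [disjoint_right]
    rintro _ ⟨l, rfl⟩
    obtain ⟨i, hi⟩ := idx_lt (p := p) g.1
    exact disjoint_stack hρ hκ _ g.2 (by rw [hi]; linarith [hpos i]) l
  · obtain ⟨i, hi⟩ := idx_lt (p := p) g.1
    refine disjoint_seg hρ hκ (by rw [hi]; linarith [hpos i]) fun h => hgg ?_
    rw [Prod.ext_iff] at h
    exact Prod.ext (idx_injective p h.1) h.2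
  choose K hK hK' using key
  refine ⟨K, hρ, hpos, hκ, hκ', hK, fun p x => ?_, fun p x => ?_, fun p x => ?_, fun p x => ?_⟩
  · exact (hK' p x.1 x.2 x.2.2).1
  · exact Or.inr (mem_iUnion.2 ⟨x.1, (hK' p x.1 x.2 x.2.2).2.1⟩)
  · exact (hK' p x.1 x.2 x.2.2).2.2.1
  · exact (hK' p x.1 x.2 x.2.2).2.2.2.1

lemma cov_core0 (hρ : 0 < ρ) : Cov (5 + 13) (core0 ρ M) := by
  refine ((cov_segment _ _).union ((cov_stack hρ).mono ?_ le_rfl)).mono subset_rfl le_rfl
  rintro _ ⟨i, rfl⟩
  exact ⟨i, rfl⟩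

variable (h : Params (M := M) ρ κ K)
include h

lemma piece_eq (p : Pair M) (x : Piece K p) :
    piece ρ κ K p x = Sim.place _ _ (h.ne p x) := by
  rw [piece, dif_pos (h.ne p x)]

lemma norm_P_lt' (i : Fin M) : ‖P ρ i‖ < 1 := norm_P_lt h.hρ (h.hpos i)

lemma core0_subset : core0 ρ M ⊆ closedBall 0 1 := by
  refine union_subset axisSeg_subset ?_
  rintro _ ⟨i, rfl⟩
  simpa using (norm_P_lt' h i).le

lemma end_norm (p : Pair M) (g : Fin 2 × Fin 4) :
    ‖segL ρ p g‖ ≤ 1 ∧ ‖segR ρ p g‖ ≤ 1 := by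
  obtain ⟨i, hi⟩ := idx_lt (p := p) g.1
  have hP := (norm_P_lt' h i).le
  have hQ : ‖Q ρ i‖ ≤ 1 := by
    refine (norm_Q_lt h.hρ ?_ i).le
    have := h.hpos i
    unfold pos at this
    nlinarith [h.hρ, (Nat.cast_nonneg (i : ℕ) : (0 : ℝ) ≤ (i : ℕ))]
  obtain ⟨a, c⟩ := g
  simp only [segL, segR, hi]
  fin_cases c <;> simp [st, en, norm_bv, hP, hQ]

lemma base_subset (p : Pair M) : base ρ p ⊆ closedBall 0 1 :=
  union_subset (core0_subset h) (iUnion_subset fun g => (convex_closedBall 0 1).segment_subset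
    (by simpa using (end_norm h p g).1) (by simpa using (end_norm h p g).2))

lemma path_props : ∀ (r : ℕ) (T : Nest), IsPath ρ κ K r T →
    T.WF N₀ ∧ T.center = 0 ∧ T.radius = 1 ∧ axisSeg ⊆ T.base := by
  intro r
  have leaf : ∀ B : Set E2, B ⊆ closedBall 0 1 → Cov N₀ B → axisSeg ⊆ B →
      let T := Nest.node B 0 1 0 Fin.elim0
      T.WF N₀ ∧ T.center = 0 ∧ T.radius = 1 ∧ axisSeg ⊆ T.base := fun B h1 h2 h3 =>
    ⟨⟨one_pos, h1, h2, fun i => i.elim0, fun i => i.elim0⟩, rfl, rfl, h3⟩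
  have l0 := leaf (core0 ρ M) (core0_subset h)
    ((cov_core0 h.hρ).mono subset_rfl (Nat.le_add_right _ _)) subset_union_left
  have hbase : ∀ p : Pair M, Cov N₀ (base ρ p) := fun p =>
    (cov_core0 h.hρ).union (cov_iUnion fun g => cov_segment _ _)
  have haxis : ∀ p : Pair M, axisSeg ⊆ base ρ p := fun p =>
    subset_union_left.trans subset_union_left
  induction r with
  | zero => rintro T rfl; exact l0
  | succ r ih =>
    rintro T (rfl | ⟨p, rfl | ⟨x, T', hT', rfl⟩⟩)
    · exact l0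
    · exact leaf _ (base_subset h p) (hbase p) (haxis p)
    · obtain ⟨hWF, hc, hr, hax⟩ := ih T' hT'
      refine ⟨⟨one_pos, base_subset h p, hbase p, fun _ => ?_, fun i j => ?_⟩, rfl, rfl, haxis p⟩
      · have hcen : (T'.map (piece ρ κ K p x)).center
            = (2 : ℝ)⁻¹ • (pieceL ρ κ K p x + pieceR ρ κ K p x) := by
          rw [Nest.map_center, hc, piece_eq h]; simp [Sim.app, Sim.place]
        have hrad : (T'.map (piece ρ κ K p x)).radius
            = ‖pieceR ρ κ K p x - pieceL ρ κ K p x‖ / 2 := by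
          rw [Nest.map_radius, hr, piece_eq h]; simp [Sim.place]
        refine ⟨?_, ?_, ?_, Nest.map_WF _ hWF⟩
        · rw [hcen]; exact h.mid p x
        · rw [hcen, hrad]; exact h.inside p x
        · rw [hcen, hrad]
          refine (h.isol p x).trans ?_
          rw [Nest.map_base, piece_eq h, ← place_axisSeg _ _ (h.ne p x)]
          exact image_mono hax
      · have hij : i = j := Subsingleton.elim _ _
        subst hij
        exact ⟨by linarith [Nest.radius_pos (Nest.map_WF (piece ρ κ K p x) hWF)],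
          fun hne => (hne rfl).elim⟩

lemma mark_mem_base (p : Pair M) (g : Fin 2 × Fin 4) {l : ℕ} (hl : l ≤ K p g) :
    mark κ (segL ρ p g) (segR ρ p g) (K p g) l ∈ base ρ p :=
  Or.inr (mem_iUnion.2 ⟨g, core_subset_segment h.hκ.le _ _
    (mark_mem_core h.hκ' _ _ (h.hK p g) hl)⟩)

lemma newPts_subset (p : Pair M) : ↑(newPts ρ κ K p) ⊆ base ρ p := by
  intro y hy
  simp only [newPts, Finset.mem_coe, Finset.mem_sdiff, Finset.mem_biUnion, Finset.mem_union,
    Finset.mem_insert, Finset.mem_singleton, Finset.mem_image, Finset.mem_range] at hy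
  obtain ⟨⟨g, -, (rfl | rfl) | ⟨l, hl, rfl⟩⟩, -⟩ := hy
  · exact Or.inr (mem_iUnion.2 ⟨g, left_mem_segment _ _ _⟩)
  · exact Or.inr (mem_iUnion.2 ⟨g, right_mem_segment _ _ _⟩)
  · exact mark_mem_base h p g (Nat.lt_succ_iff.1 hl)

lemma newPts_not_axis (p : Pair M) {y : E2} (hy : y ∈ newPts ρ κ K p) : y ∉ axisSeg := by
  intro hax
  simp only [newPts, Finset.mem_sdiff, Finset.mem_biUnion, Finset.mem_union, Finset.mem_insert,
    Finset.mem_singleton, Finset.mem_image, Finset.mem_range, stackFin] at hy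
  obtain ⟨⟨g, -, hy⟩, hnot⟩ := hy
  push Not at hnot
  obtain ⟨⟨hn0, hn1⟩, hn2⟩ := hnot
  obtain ⟨i, hi⟩ := idx_lt (p := p) g.1
  have hQ : Q ρ i ∉ axisSeg := by
    rw [axisSeg, segment_eq_image']
    rintro ⟨t, -, ht⟩
    have := congr_arg (fun z : E2 => z ((i : ℕ) + 1)) ht
    simp only [Q_self] at this
    have h' : (-bv 0 + t • (bv 0 - -bv 0)) ((i : ℕ) + 1) = (0 : ℝ) := by
      change -(bv 0 ((i : ℕ) + 1)) + t * (bv 0 ((i : ℕ) + 1) - -(bv 0 ((i : ℕ) + 1))) = 0
      rw [bv0_succ]; ring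
    linarith [h'.symm.trans this, h.hρ]
  obtain ⟨a, c⟩ := g
  rcases hy with (rfl | rfl) | ⟨l, hl, rfl⟩
  · simp only [segL, hi] at hax hn0 hn1 hn2
    fin_cases c <;> simp [st] at hax hn0 hn1 hn2
    · exact hn2 i rfl
    · exact hQ hax
  · simp only [segR, hi] at hax hn0 hn1 hn2
    fin_cases c <;> simp [en] at hax hn0 hn1 hn2
    · exact hn2 i rfl
    · exact hQ hax
    · exact hn2 i rfl
  · exact disjoint_left.1 (disjoint_axis h.hρ h.hκ _ c)
      (mark_mem_core h.hκ' _ _ (h.hK p (a, c)) (Nat.lt_succ_iff.1 hl)) hax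

lemma tree_good : ∀ (r : ℕ) (g : Sim) (A : Set E2), g.app (-bv 0) ∈ A → g.app (bv 0) ∈ A →
    (∀ T, IsPath ρ κ K r T → Cov N₁ (A ∪ g.app '' T.carrier)) →
    A ∩ g.app '' closedBall 0 1 ⊆ g.app '' axisSeg →
    g.app '' closedBall 0 1 ⊆ closedBall 0 1 →
    TreeGood N₁ (tree ρ κ K r g) A := by
  classical
  intro r
  induction r with
  | zero =>
    intro g A _ _ hcov _ _
    exact ⟨fun i => i.elim0, fun i => i.elim0,
      (hcov _ rfl).mono (by simp) le_rfl, fun i => i.elim0⟩
  | succ r ih =>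
    intro g A ha hb hcov hA hball
    have hstack : ↑((stackFin ρ M).image g.app) ⊆ g.app '' core0 ρ M := by
      intro y hy
      simp only [Finset.mem_coe, Finset.mem_image, stackFin, Finset.mem_univ, true_and] at hy
      obtain ⟨_, ⟨i, rfl⟩, rfl⟩ := hy
      exact mem_image_of_mem _ (Or.inr ⟨i, rfl⟩)
    simp only [tree, PTree.ofFinset, TreeGood, range_ofFinset]
    refine ⟨Subtype.val_injective.comp (Finset.equivFin _).symm.injective, fun i => ?_, ?_,
      fun i => ?_⟩
    · set q := ((Finset.equivFin ((stackFin ρ M).image g.app)).symm i : E2)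
      have hq : q ∈ (stackFin ρ M).image g.app :=
        ((Finset.equivFin ((stackFin ρ M).image g.app)).symm i).2
      simp only [Finset.mem_image, stackFin, Finset.mem_univ, true_and] at hq
      obtain ⟨_, ⟨l, rfl⟩, hq⟩ := hq
      rw [← hq]
      have hin : P ρ l ∈ closedBall (0 : E2) 1 := core0_subset h (Or.inr ⟨l, rfl⟩)
      refine ⟨fun hmem => ?_, by simpa using hball (mem_image_of_mem _ hin)⟩
      obtain ⟨z, hz, hzl⟩ := hA ⟨hmem, mem_image_of_mem _ hin⟩
      rw [g.app_injective hzl, axisSeg, segment_eq_image'] at hz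
      obtain ⟨t, -, ht⟩ := hz
      have := congr_arg (fun w : E2 => w ((l : ℕ) + 1)) ht
      simp only [P_self] at this
      have h' : (-bv 0 + t • (bv 0 - -bv 0)) ((l : ℕ) + 1) = (0 : ℝ) := by
        change -(bv 0 ((l : ℕ) + 1)) + t * (bv 0 ((l : ℕ) + 1) - -(bv 0 ((l : ℕ) + 1))) = 0
        rw [bv0_succ]; ring
      linarith [h'.symm.trans this, h.hρ]
    · refine (hcov _ (Or.inl rfl)).mono (union_subset_union_right _ ?_) le_rfl
      simpa [Nest.carrier] using hstack
    set p := (Fintype.equivFin (Pair M)).symm i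
    have hnew : ↑((newPts ρ κ K p).image g.app) ⊆ g.app '' base ρ p := by
      rw [Finset.coe_image]
      exact image_mono (newPts_subset h p)
    have hsub : A ∪ ↑((stackFin ρ M).image g.app) ∪ ↑((newPts ρ κ K p).image g.app)
        ⊆ A ∪ g.app '' base ρ p := by
      refine union_subset (union_subset_union_right _ (hstack.trans ?_))
        (hnew.trans subset_union_right)
      exact image_mono subset_union_left
    refine ⟨Subtype.val_injective.comp (Finset.equivFin _).symm.injective, fun j => ?_, ?_,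
      fun j => ?_⟩
    · set q := ((Finset.equivFin ((newPts ρ κ K p).image g.app)).symm j : E2)
      have hq : q ∈ (newPts ρ κ K p).image g.app :=
        ((Finset.equivFin ((newPts ρ κ K p).image g.app)).symm j).2
      rw [Finset.mem_image] at hq
      obtain ⟨y, hy, hyq⟩ := hq
      rw [← hyq]
      have hin : y ∈ closedBall (0 : E2) 1 := base_subset h p (newPts_subset h p hy)
      refine ⟨fun hmem => ?_, by simpa using hball (mem_image_of_mem _ hin)⟩
      rcases hmem with hmem | hmem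
      · obtain ⟨z, hz, hzy⟩ := hA ⟨hmem, mem_image_of_mem _ hin⟩
        rw [g.app_injective hzy] at hz
        exact newPts_not_axis h p hy hz
      · simp only [Finset.mem_coe, Finset.mem_image] at hmem
        obtain ⟨z, hz, hzy⟩ := hmem
        rw [g.app_injective hzy] at hz
        simp only [newPts, Finset.mem_sdiff, Finset.mem_union] at hy
        exact hy.2 (Or.inr hz)
    · refine (hcov (.node (base ρ p) 0 1 0 Fin.elim0) (Or.inr ⟨p, Or.inl rfl⟩)).mono
        (hsub.trans (union_subset_union_right _ ?_)) le_rfl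
      simp [Nest.carrier]
    set x := (Fintype.equivFin (Piece K p)).symm j
    have hmark : ∀ l ≤ K p x.1, g.app (mark κ (segL ρ p x.1) (segR ρ p x.1) (K p x.1) l)
        ∈ A ∪ ↑((stackFin ρ M).image g.app) ∪ ↑((newPts ρ κ K p).image g.app) := by
      intro l hl
      set y := mark κ (segL ρ p x.1) (segR ρ p x.1) (K p x.1) l with hy
      by_cases hyA : y ∈ ({-bv 0, bv 0} : Finset E2) ∪ stackFin ρ M
      · simp only [Finset.mem_union, Finset.mem_insert, Finset.mem_singleton] at hyA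
        rcases hyA with (hy' | hy') | hy'
        · rw [hy']; exact Or.inl (Or.inl ha)
        · rw [hy']; exact Or.inl (Or.inl hb)
        · exact Or.inl (Or.inr (Finset.mem_image_of_mem _ hy'))
      · refine Or.inr (Finset.mem_image_of_mem _ ?_)
        refine Finset.mem_sdiff.2 ⟨Finset.mem_biUnion.2 ⟨x.1, Finset.mem_univ _, ?_⟩, hyA⟩
        exact Finset.mem_union_right _
          (Finset.mem_image.2 ⟨l, Finset.mem_range.2 (Nat.lt_succ_of_le hl), rfl⟩)
    have himg : (piece ρ κ K p x).app '' closedBall 0 1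
        = closedBall ((2 : ℝ)⁻¹ • (pieceL ρ κ K p x + pieceR ρ κ K p x))
          (‖pieceR ρ κ K p x - pieceL ρ κ K p x‖ / 2) := by
      rw [Sim.image_closedBall, piece_eq h]
      simp [Sim.app, Sim.place]
    have hlr : (piece ρ κ K p x).app '' closedBall 0 1 ⊆ closedBall 0 1 := by
      rw [himg]
      refine closedBall_subset_closedBall' ?_
      linarith [h.inside p x, norm_nonneg (pieceR ρ κ K p x - pieceL ρ κ K p x)]
    refine ih _ _ ?_ ?_ (fun T hT => ?_) ?_ ?_
    · rw [Sim.comp_app, piece_eq h, Sim.place_left]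
      exact hmark x.2 x.2.2.le
    · rw [Sim.comp_app, piece_eq h, Sim.place_right]
      exact hmark (x.2 + 1) x.2.2
    · have := hcov _ (Or.inr ⟨p, Or.inr ⟨x, T, hT, rfl⟩⟩)
      refine this.mono (union_subset (hsub.trans (union_subset_union_right _ ?_)) ?_) le_rfl
      · exact image_mono subset_union_left
      · refine Subset.trans ?_ subset_union_right
        simp only [Nest.carrier, Nest.map_carrier]
        rintro _ ⟨z, hz, rfl⟩
        rw [Sim.comp_app]
        exact mem_image_of_mem _ (Or.inr (mem_iUnion.2 ⟨0, mem_image_of_mem _ hz⟩))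
    · rintro y ⟨hy, z, hz, rfl⟩
      rw [Sim.comp_app] at hy ⊢
      have hz' := mem_image_of_mem (piece ρ κ K p x).app hz
      have hb' : (piece ρ κ K p x).app z ∈ base ρ p := by
        rcases hsub hy with hy' | ⟨w, hw, hwz⟩
        · obtain ⟨w, hw, hwz⟩ := hA ⟨hy', mem_image_of_mem _ (hlr hz')⟩
          rw [← g.app_injective hwz]
          exact Or.inl (Or.inl hw)
        · rwa [← g.app_injective hwz]
      have := h.isol p x ⟨hb', himg ▸ hz'⟩
      rw [← place_axisSeg _ _ (h.ne p x), ← piece_eq h] at this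
      obtain ⟨w, hw, hwz⟩ := this
      exact ⟨w, hw, by rw [Sim.comp_app, hwz]⟩
    · rintro _ ⟨z, hz, rfl⟩
      rw [Sim.comp_app]
      exact hball (mem_image_of_mem _ (hlr (mem_image_of_mem _ hz)))

omit h

/-- Too many points at comparable mutual distance do not fit in a Euclidean space. -/
lemma exists_packing (k : ℕ) (D : ℝ) : ∃ M, 2 ≤ M ∧ ∀ ψ : Fin M → Euc k,
    (∀ i j, ‖ψ i - ψ j‖ ≤ D) → ∃ i j, i < j ∧ ‖ψ i - ψ j‖ < 1 := by
  classical
  obtain ⟨t, -, ht, hc⟩ :=
    finite_cover_balls_of_compact (isCompact_closedBall (0 : Euc k) D)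
      (show (0 : ℝ) < 1 / 2 by norm_num)
  refine ⟨ht.toFinset.card + 2, by omega, fun ψ hψ => ?_⟩
  have hmem : ∀ i, ∃ c ∈ ht.toFinset, ψ i - ψ 0 ∈ ball c (1 / 2) := fun i => by
    obtain ⟨c, hc, hcc⟩ := mem_iUnion₂.1 (hc (by simpa using hψ i 0))
    exact ⟨c, ht.mem_toFinset.2 hc, hcc⟩
  choose c hc hcb using hmem
  obtain ⟨i, -, j, -, hij, he⟩ := Finset.exists_ne_map_eq_of_card_lt_of_maps_to
    (s := Finset.univ) (t := ht.toFinset) (by simp) (fun i _ => hc i)
  have hlt : ‖ψ i - ψ j‖ < 1 := by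
    have h1 := mem_ball.1 (hcb i)
    have h2 := mem_ball.1 (hcb j)
    rw [he] at h1
    rw [← sub_sub_sub_cancel_right (ψ i) (ψ j) (ψ 0), ← dist_eq_norm]
    linarith [dist_triangle_right (ψ i - ψ 0) (ψ j - ψ 0) (c j)]
  rcases lt_or_gt_of_ne hij with h | h
  · exact ⟨i, j, h, hlt⟩
  · exact ⟨j, i, h, by rwa [norm_sub_rev]⟩

end TreeCon

end Vale.Agent.P208
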