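import Vale.Agent.P208.Common

open Metric Set

namespace Vale.Agent.P208.Stack

variable (ρ : ℝ)

/-- Position along the axis of the `i`-th point of the stack. -/
def pos (i : ℕ) : ℝ := 4 * ρ * (i + 1)

/-- The `i`-th point of the staggered stack. -/
noncomputable def P (i : ℕ) : E2 := pos ρ i • bv 0 + ρ • bv (i + 1)

/-- The `i`-th point of the aligned pairs. -/
noncomputable def Q (i : ℕ) : E2 := ρ • bv (i + 1)

/-- Starting point of the four segments attached to one index. -/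
noncomputable def st (i : ℕ) : Fin 4 → E2 :=
  ![-bv 0, P ρ i, -bv 0, Q ρ i]

/-- End point of the four segments attached to one index. -/
noncomputable def en (i : ℕ) : Fin 4 → E2 :=
  ![P ρ i, bv 0, Q ρ i, P ρ i]

variable {ρ}

lemma P_apply (i n : ℕ) : P ρ i n = (if n = 0 then pos ρ i else 0) + (if n = i + 1 then ρ else 0) := by
  change pos ρ i * bv 0 n + ρ * bv (i + 1) n = _
  simp only [bv_apply, mul_ite, mul_one, mul_zero]

lemma Q_apply (i n : ℕ) : Q ρ i n = if n = i + 1 then ρ else 0 := by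
  change ρ * bv (i + 1) n = _
  simp only [bv_apply, mul_ite, mul_one, mul_zero]

lemma P_zero (i : ℕ) : P ρ i 0 = pos ρ i := by simp [P_apply]

lemma P_self (i : ℕ) : P ρ i (i + 1) = ρ := by simp [P_apply]

lemma P_other {i l : ℕ} (h : l ≠ i) : P ρ i (l + 1) = 0 := by simp [P_apply, h]

lemma Q_zero (i : ℕ) : Q ρ i 0 = 0 := by simp [Q_apply]

lemma Q_self (i : ℕ) : Q ρ i (i + 1) = ρ := by simp [Q_apply]

lemma Q_other {i l : ℕ} (h : l ≠ i) : Q ρ i (l + 1) = 0 := by simp [Q_apply, h]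

lemma bv0_zero : bv 0 0 = 1 := by simp [bv_apply]

lemma bv0_succ (n : ℕ) : bv 0 (n + 1) = 0 := by simp [bv_apply]

lemma combo_apply (p q : E2) (θ : ℝ) (n : ℕ) :
    (p + θ • (q - p)) n = p n + θ * (q n - p n) :=
  rfl

lemma seg_other {i l : ℕ} (h : l ≠ i) (c : Fin 4) (θ : ℝ) :
    (st ρ i c + θ • (en ρ i c - st ρ i c)) (l + 1) = 0 := by
  rw [combo_apply]
  fin_cases c <;> simp [st, en, P_other h, Q_other h, bv0_succ]

lemma seg_self (i : ℕ) (c : Fin 4) (θ : ℝ) :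
    (st ρ i c + θ • (en ρ i c - st ρ i c)) (i + 1) = ![θ * ρ, (1 - θ) * ρ, θ * ρ, ρ] c := by
  rw [combo_apply]
  fin_cases c <;> simp [st, en, P_self, Q_self, bv0_succ]
  ring

lemma seg_zero (i : ℕ) (c : Fin 4) (θ : ℝ) :
    (st ρ i c + θ • (en ρ i c - st ρ i c)) 0 = ![θ * (pos ρ i + 1) - 1,
      pos ρ i + θ * (1 - pos ρ i), θ - 1, θ * pos ρ i] c := by
  rw [combo_apply]
  fin_cases c <;> simp [st, en, P_zero, Q_zero, bv0_zero] <;> ring

lemma seg_self_pos (hρ : 0 < ρ) (i : ℕ) (c : Fin 4) {θ : ℝ} (h0 : 0 < θ) (h1 : θ < 1) :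
    0 < (st ρ i c + θ • (en ρ i c - st ρ i c)) (i + 1) := by
  rw [seg_self]
  have : 0 < 1 - θ := by linarith
  fin_cases c <;> simp <;> positivity

lemma pos_pos (hρ : 0 < ρ) (i : ℕ) : 0 < pos ρ i := by unfold pos; positivity

lemma core_eq {κ : ℝ} {p q x : E2} (hx : x ∈ core κ p q) :
    ∃ θ, (κ ≤ θ ∧ θ ≤ 1 - κ) ∧ x = p + θ • (q - p) := by
  obtain ⟨θ, hθ, rfl⟩ := hx
  exact ⟨θ, hθ, rfl⟩

lemma disjoint_axis (hρ : 0 < ρ) {κ : ℝ} (hκ : 0 < κ) (i : ℕ) (c : Fin 4) :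
    Disjoint (core κ (st ρ i c) (en ρ i c)) axisSeg := by
  rw [disjoint_left]
  intro x hx hx'
  obtain ⟨θ, ⟨h0, h1⟩, rfl⟩ := core_eq hx
  rw [axisSeg, segment_eq_image'] at hx'
  obtain ⟨t, -, ht⟩ := hx'
  have h := congr_arg (fun z : E2 => z (i + 1)) ht
  have h' : (-bv 0 + t • (bv 0 - -bv 0)) (i + 1) = (0 : ℝ) := by
    change -(bv 0 (i + 1)) + t * (bv 0 (i + 1) - -(bv 0 (i + 1))) = 0
    rw [bv0_succ]; ring
  have h'' : (0 : ℝ) = (st ρ i c + θ • (en ρ i c - st ρ i c)) (i + 1) := h'.symm.trans h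
  linarith [seg_self_pos hρ i c (show 0 < θ by linarith) (show θ < 1 by linarith)]

lemma disjoint_stack (hρ : 0 < ρ) {κ : ℝ} (hκ : 0 < κ) (i : ℕ) (c : Fin 4) (hsmall : pos ρ i < 1)
    (l : ℕ) : P ρ l ∉ core κ (st ρ i c) (en ρ i c) := by
  intro hx
  obtain ⟨θ, ⟨h0, h1⟩, he⟩ := core_eq hx
  rcases eq_or_ne l i with rfl | hli
  · have hs := congr_arg (fun z : E2 => z (l + 1)) he
    have hz := congr_arg (fun z : E2 => z 0) he
    simp only [P_self, seg_self] at hs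
    simp only [P_zero, seg_zero] at hz
    have := pos_pos hρ l
    fin_cases c <;> simp at hs hz <;> nlinarith
  · have hs := congr_arg (fun z : E2 => z (l + 1)) he
    simp only [P_self, seg_other hli] at hs
    linarith

lemma disjoint_seg (hρ : 0 < ρ) {κ : ℝ} (hκ : 0 < κ) {i j : ℕ} {c d : Fin 4}
    (hsmall : pos ρ i < 1) (h : (i, c) ≠ (j, d)) :
    Disjoint (core κ (st ρ i c) (en ρ i c)) (segment ℝ (st ρ j d) (en ρ j d)) := by
  rw [disjoint_left]
  intro x hx hx'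
  obtain ⟨θ, ⟨h0, h1⟩, rfl⟩ := core_eq hx
  rw [segment_eq_image'] at hx'
  obtain ⟨t, ⟨ht0, ht1⟩, he⟩ := hx'
  simp only at he
  rcases eq_or_ne i j with rfl | hij
  · have hcd : c ≠ d := fun hh => h (by rw [hh])
    have hs := congr_arg (fun z : E2 => z (i + 1)) he
    have hz := congr_arg (fun z : E2 => z 0) he
    simp only [seg_self] at hs
    simp only [seg_zero] at hz
    have := pos_pos hρ i
    have h2 := mul_pos (show 0 < θ by linarith) this
    have h3 := mul_pos (show 0 < 1 - θ by linarith) this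
    fin_cases c <;> fin_cases d <;> simp [hρ.ne'] at hcd hs hz <;> (try subst hs) <;> nlinarith
  · have hs := congr_arg (fun z : E2 => z (i + 1)) he
    simp only [seg_other hij] at hs
    linarith [seg_self_pos hρ i c (show 0 < θ by linarith) (show θ < 1 by linarith)]

lemma norm_combo (a b : ℝ) {n : ℕ} (hn : n ≠ 0) : ‖a • bv 0 + b • bv n‖ ^ 2 = a ^ 2 + b ^ 2 := by
  rw [norm_add_sq_real, norm_smul, norm_smul, norm_bv, norm_bv, inner_smul_left, inner_smul_right,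
    inner_bv, bv_apply, if_neg (Ne.symm hn)]
  simp [sq_abs]

lemma norm_P_lt (hρ : 0 < ρ) {i : ℕ} (h : pos ρ i < 1 / 2) : ‖P ρ i‖ < 1 := by
  have h1 := norm_combo (pos ρ i) ρ (Nat.succ_ne_zero i)
  have h2 : ρ < 1 / 8 := by
    have : (1 : ℝ) ≤ (i : ℝ) + 1 := by linarith [(Nat.cast_nonneg i : (0 : ℝ) ≤ i)]
    unfold pos at h
    nlinarith
  have := pos_pos hρ i
  change ‖pos ρ i • bv 0 + ρ • bv (i + 1)‖ < 1
  nlinarith [norm_nonneg (pos ρ i • bv 0 + ρ • bv (i + 1))]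

lemma norm_Q_lt (hρ : 0 < ρ) (h : ρ < 1) (i : ℕ) : ‖Q ρ i‖ < 1 := by
  rw [Q, norm_smul, norm_bv, mul_one, Real.norm_of_nonneg hρ.le]
  exact h

lemma norm_combo_lt {p q : E2} {θ : ℝ} (h0 : 0 < θ) (h1 : θ < 1) (hp : ‖p‖ ≤ 1) (hq : ‖q‖ ≤ 1)
    (hpq : ‖p‖ < 1 ∨ ‖q‖ < 1) : ‖p + θ • (q - p)‖ < 1 := by
  have h2 : 0 < 1 - θ := by linarith
  calc ‖p + θ • (q - p)‖ = ‖(1 - θ) • p + θ • q‖ := by congr 1; module
    _ ≤ (1 - θ) * ‖p‖ + θ * ‖q‖ := by
        refine (norm_add_le _ _).trans_eq ?_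
        rw [norm_smul, norm_smul, Real.norm_of_nonneg h2.le, Real.norm_of_nonneg h0.le]
    _ < 1 := by
        rcases hpq with h4 | h4
        · linarith [mul_lt_mul_of_pos_left h4 h2, mul_le_mul_of_nonneg_left hq h0.le]
        · linarith [mul_lt_mul_of_pos_left h4 h0, mul_le_mul_of_nonneg_left hp h2.le]

lemma core_ball (hρ : 0 < ρ) {κ : ℝ} (hκ : 0 < κ) {i : ℕ} (h : pos ρ i < 1 / 2) (c : Fin 4) :
    core κ (st ρ i c) (en ρ i c) ⊆ ball 0 1 := by
  intro x hx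
  obtain ⟨θ, ⟨h0, h1⟩, rfl⟩ := core_eq hx
  have hq : ρ < 1 := by
    unfold pos at h
    nlinarith [(Nat.cast_nonneg i : (0 : ℝ) ≤ i)]
  rw [mem_ball, dist_zero_right]
  have hP := norm_P_lt hρ h
  have hQ := norm_Q_lt hρ hq i
  have hb : ‖bv 0‖ ≤ 1 := (norm_bv 0).le
  have hb' : ‖-bv 0‖ ≤ 1 := (norm_neg (bv 0)).trans_le hb
  have k0 : 0 < θ := by linarith
  have k1 : θ < 1 := by linarith
  fin_cases c
  · exact norm_combo_lt k0 k1 hb' hP.le (Or.inr hP)
  · exact norm_combo_lt k0 k1 hP.le hb (Or.inl hP)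
  · exact norm_combo_lt k0 k1 hb' hQ.le (Or.inr hQ)
  · exact norm_combo_lt k0 k1 hQ.le hP.le (Or.inl hQ)

lemma cov_stack (hρ : 0 < ρ) : Cov 13 (range (P ρ)) := by
  classical
  intro x R hR
  by_cases hne : (range (P ρ) ∩ closedBall x R).Nonempty
  swap
  · exact ⟨∅, by simp, fun z hz => (hne ⟨z, hz⟩).elim⟩
  obtain ⟨_, ⟨i₀, rfl⟩, hi₀⟩ := hne
  let bin : ℕ → ℤ := fun i => ⌊(pos ρ i - pos ρ i₀) / (R / 3)⌋
  let rep : ℤ → E2 := fun b => if h : ∃ i, bin i = b then P ρ h.choose else x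
  refine ⟨(Finset.Icc (-6 : ℤ) 6).image rep, Finset.card_image_le.trans (by simp), ?_⟩
  rintro _ ⟨⟨i, rfl⟩, hi⟩
  have hproj : ∀ a b, |pos ρ a - pos ρ b| ≤ ‖P ρ a - P ρ b‖ := fun a b => by
    have h := abs_real_inner_le_norm (bv 0) (P ρ a - P ρ b)
    rw [inner_bv, norm_bv, one_mul] at h
    simpa [P_zero] using h
  have hup : ∀ a b, ‖P ρ a - P ρ b‖ ≤ 3 / 2 * |pos ρ a - pos ρ b| := fun a b => by
    rcases eq_or_ne a b with rfl | hab
    · simp
    have h4 : 4 * ρ ≤ |pos ρ a - pos ρ b| := by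
      have : pos ρ a - pos ρ b = 4 * ρ * ((a : ℝ) - b) := by unfold pos; ring
      rw [this, abs_mul, abs_of_pos (by linarith : 0 < 4 * ρ)]
      refine le_mul_of_one_le_right (by linarith) ?_
      rcases lt_or_gt_of_ne hab with h | h
      · have : (a : ℝ) + 1 ≤ b := by exact_mod_cast h
        rw [abs_of_nonpos (by linarith)]; linarith
      · have : (b : ℝ) + 1 ≤ a := by exact_mod_cast h
        rw [abs_of_nonneg (by linarith)]; linarith
    calc ‖P ρ a - P ρ b‖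
        = ‖(pos ρ a - pos ρ b) • bv 0 + (ρ • bv (a + 1) - ρ • bv (b + 1))‖ := by
          simp only [P]; congr 1; module
      _ ≤ |pos ρ a - pos ρ b| + (ρ + ρ) := by
          refine (norm_add_le _ _).trans (add_le_add ?_ ((norm_sub_le _ _).trans ?_))
          · rw [norm_smul, norm_bv, mul_one, Real.norm_eq_abs]
          · simp [norm_smul, norm_bv, abs_of_pos hρ]
      _ ≤ _ := by linarith
  have hd : |pos ρ i - pos ρ i₀| ≤ 2 * R := by
    refine (hproj i i₀).trans ?_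
    rw [← dist_eq_norm]
    linarith [dist_triangle_right (P ρ i) (P ρ i₀) x, mem_closedBall.1 hi, mem_closedBall.1 hi₀]
  have h3 : 0 < R / 3 := by linarith
  rw [abs_le] at hd
  have hmem : bin i ∈ Finset.Icc (-6 : ℤ) 6 := by
    rw [Finset.mem_Icc]
    constructor
    · refine Int.le_floor.2 ?_
      rw [le_div_iff₀ h3]
      push_cast
      linarith
    · refine Int.lt_add_one_iff.1 (Int.floor_lt.2 ?_)
      rw [div_lt_iff₀ h3]
      push_cast
      linarith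
  refine mem_iUnion₂.2 ⟨rep (bin i), Finset.mem_image_of_mem _ hmem, ?_⟩
  have hex : ∃ l, bin l = bin i := ⟨i, rfl⟩
  simp only [rep, dif_pos hex, mem_closedBall, dist_eq_norm]
  refine (hup _ _).trans ?_
  have e := Int.abs_sub_lt_one_of_floor_eq_floor hex.choose_spec
  rw [← sub_div, abs_div, abs_of_pos h3, div_lt_one h3] at e
  rw [abs_sub_comm]
  rw [show pos ρ hex.choose - pos ρ i₀ - (pos ρ i - pos ρ i₀)
    = pos ρ hex.choose - pos ρ i by ring] at e
  linarith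

end Vale.Agent.P208.Stack
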